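import Mathlib

/-!
Weak limits along ultrafilters, minimal invariant sets and the Goebel–Karlovitz lemma.
-/

namespace Vale.Agent.P079

open Filter Topology Set

variable {X : Type*} [NormedAddCommGroup X] [NormedSpace ℝ X]

theorem exists_lim_of_bounded {ι : Type*} (U : Ultrafilter ι) (f : ι → ℝ) (M : ℝ)
    (h : ∀ i, |f i| ≤ M) : ∃ c, Tendsto f (U : Filter ι) (𝓝 c) := by
  have hK : IsCompact (Icc (-M) M) := isCompact_Icc
  have hle : ((U.map f : Ultrafilter ℝ) : Filter ℝ) ≤ 𝓟 (Icc (-M) M) := by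
    rw [Ultrafilter.coe_map]
    exact le_principal_iff.2 (Filter.mem_map.2 (Filter.univ_mem' fun i => abs_le.1 (h i)))
  obtain ⟨c, -, hc⟩ := hK.ultrafilter_le_nhds (U.map f) hle
  exact ⟨c, hc⟩

/-- In a reflexive space every bounded family has a weak limit along every ultrafilter. -/
theorem exists_weakLim_of_surjective
    (hX : Function.Surjective (NormedSpace.inclusionInDoubleDual ℝ X))
    {ι : Type*} (U : Ultrafilter ι) (x : ι → X) (M : ℝ) (h : ∀ i, ‖x i‖ ≤ M) :
    ∃ w, ∀ g : StrongDual ℝ X, Tendsto (fun i => g (x i)) (U : Filter ι) (𝓝 (g w)) := by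
  have hb : ∀ (g : StrongDual ℝ X) i, |g (x i)| ≤ ‖g‖ * M := by
    intro g i
    calc |g (x i)| = ‖g (x i)‖ := (Real.norm_eq_abs _).symm
      _ ≤ ‖g‖ * ‖x i‖ := g.le_opNorm _
      _ ≤ ‖g‖ * M := mul_le_mul_of_nonneg_left (h i) (norm_nonneg _)
  choose c hc using fun g : StrongDual ℝ X => exists_lim_of_bounded U (fun i => g (x i)) _ (hb g)
  let L : StrongDual ℝ X →ₗ[ℝ] ℝ :=
    { toFun := c
      map_add' := fun g g' => tendsto_nhds_unique (hc (g + g')) (by
        simpa using (hc g).add (hc g'))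
      map_smul' := fun a g => tendsto_nhds_unique (hc (a • g)) (by
        simpa using (hc g).const_mul a) }
  have hL : ∀ g, ‖L g‖ ≤ M * ‖g‖ := by
    intro g
    rw [mul_comm M]
    exact le_of_tendsto' ((hc g).norm) fun i => by simpa [Real.norm_eq_abs] using hb g i
  obtain ⟨w, hw⟩ := hX (LinearMap.mkContinuous L M hL)
  refine ⟨w, fun g => ?_⟩
  have : g w = c g := by
    rw [← NormedSpace.dual_def ℝ X w g, hw]
    rfl
  rw [this]
  exact hc g

/-- A closed convex set contains the weak limit of points that are eventually in it. -/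
theorem mem_of_weakLim {ι : Type*} {F : Filter ι} [F.NeBot] {x : ι → X} {w : X}
    (hw : ∀ g : StrongDual ℝ X, Tendsto (fun i => g (x i)) F (𝓝 (g w)))
    {K : Set X} (hK : Convex ℝ K) (hKc : IsClosed K) (hx : ∀ᶠ i in F, x i ∈ K) : w ∈ K := by
  by_contra hcon
  obtain ⟨g, u, hgK, hgw⟩ := geometric_hahn_banach_closed_point hK hKc hcon
  have : g w ≤ u := le_of_tendsto (hw g) (hx.mono fun i hi => (hgK _ hi).le)
  exact absurd hgw (not_lt.2 this)

theorem norm_sub_le_of_weakLim {ι : Type*} {F : Filter ι} [F.NeBot] {x : ι → X} {w : X}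
    (hw : ∀ g : StrongDual ℝ X, Tendsto (fun i => g (x i)) F (𝓝 (g w)))
    (c : X) {r : ℝ} (hx : ∀ᶠ i in F, ‖x i - c‖ ≤ r) : ‖w - c‖ ≤ r :=
  mem_closedBall_iff_norm.1 (mem_of_weakLim hw (convex_closedBall c r) Metric.isClosed_closedBall
    (hx.mono fun _ hi => mem_closedBall_iff_norm.2 hi))

theorem lip_apply {T : X → X} {C : Set X} (hT : LipschitzOnWith 1 T C) {x y : X} (hx : x ∈ C)
    (hy : y ∈ C) : ‖T x - T y‖ ≤ ‖x - y‖ := by
  simpa using hT.norm_sub_le hx hy

/-- Goebel–Karlovitz: in a minimal invariant set of diameter one, approximate fixed point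
sequences are asymptotically at distance one from every point. -/
theorem goebel_karlovitz
    (hR : ∀ (U : Ultrafilter ℕ) (x : ℕ → X) (M : ℝ), (∀ i, ‖x i‖ ≤ M) →
      ∃ w, ∀ g : StrongDual ℝ X, Tendsto (fun i => g (x i)) (U : Filter ℕ) (𝓝 (g w)))
    {C : Set X} (hcl : IsClosed C) (hcv : Convex ℝ C)
    (hd : ∀ x ∈ C, ∀ y ∈ C, ‖x - y‖ ≤ 1)
    (hd' : ∀ ρ < (1 : ℝ), ∃ x ∈ C, ∃ y ∈ C, ρ < ‖x - y‖)
    {T : X → X} (hmaps : MapsTo T C C) (hT : LipschitzOnWith 1 T C)
    (hmin : ∀ E ⊆ C, E.Nonempty → IsClosed E → Convex ℝ E → MapsTo T E E → C ⊆ E)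
    {f : ℕ → X} (hf : ∀ n, f n ∈ C) (hfT : Tendsto (fun n => ‖T (f n) - f n‖) atTop (𝓝 0))
    {k : X} (hk : k ∈ C) {ε : ℝ} (hε : 0 < ε) : ∀ᶠ n in atTop, 1 - ε ≤ ‖f n - k‖ := by
  by_contra hcon
  rw [not_eventually] at hcon
  obtain ⟨σ, hσ, hσk⟩ := extraction_of_frequently_atTop hcon
  have hgT : Tendsto (fun n => ‖T (f (σ n)) - f (σ n)‖) atTop (𝓝 0) :=
    hfT.comp hσ.tendsto_atTop
  set K : Set X := {x | x ∈ C ∧ ∀ η > 0, ∀ᶠ n in atTop, ‖f (σ n) - x‖ ≤ 1 - ε + η} with hKdef
  have hKC : C ⊆ K := by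
    refine hmin K (fun x hx => hx.1) ⟨k, hk, fun η hη => Eventually.of_forall fun n => ?_⟩ ?_ ?_ ?_
    · have := not_le.1 (hσk n)
      linarith
    · refine isClosed_of_closure_subset fun x hx => ⟨?_, fun η hη => ?_⟩
      · exact closure_minimal (fun y hy => hy.1) hcl hx
      · obtain ⟨y, hy, hxy⟩ := Metric.mem_closure_iff.1 hx (η / 2) (by linarith)
        rw [dist_eq_norm, norm_sub_rev] at hxy
        filter_upwards [hy.2 (η / 2) (by linarith)] with n hn
        linarith [norm_sub_le_norm_sub_add_norm_sub (f (σ n)) y x]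
    · intro x hx y hy a b ha hb hab
      refine ⟨hcv hx.1 hy.1 ha hb hab, fun η hη => ?_⟩
      filter_upwards [hx.2 η hη, hy.2 η hη] with n h1 h2
      have hsplit : f (σ n) - (a • x + b • y) = a • (f (σ n) - x) + b • (f (σ n) - y) := by
        have hfn : (a + b) • f (σ n) = f (σ n) := by rw [hab, one_smul]
        rw [smul_sub, smul_sub]
        rw [add_smul] at hfn
        nth_rewrite 1 [← hfn]
        abel
      rw [hsplit]
      refine (norm_add_le _ _).trans ?_
      rw [norm_smul, norm_smul, Real.norm_of_nonneg ha, Real.norm_of_nonneg hb]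
      calc a * ‖f (σ n) - x‖ + b * ‖f (σ n) - y‖ ≤ a * (1 - ε + η) + b * (1 - ε + η) :=
            add_le_add (mul_le_mul_of_nonneg_left h1 ha) (mul_le_mul_of_nonneg_left h2 hb)
        _ = 1 - ε + η := by rw [← add_mul, hab, one_mul]
    · intro x hx
      refine ⟨hmaps hx.1, fun η hη => ?_⟩
      filter_upwards [hx.2 (η / 2) (by linarith),
        hgT.eventually (eventually_le_nhds (show (0 : ℝ) < η / 2 by linarith))] with n h1 h2
      have h3 := lip_apply hT (hf (σ n)) hx.1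
      have h4 := norm_sub_le_norm_sub_add_norm_sub (f (σ n)) (T (f (σ n))) (T x)
      rw [norm_sub_rev (T (f (σ n))) (f (σ n))] at h2
      linarith
  obtain ⟨U, hU⟩ : ∃ U : Ultrafilter ℕ, (U : Filter ℕ) ≤ atTop :=
    ⟨Ultrafilter.of atTop, Ultrafilter.of_le _⟩
  have hbd : ∀ n, ‖f (σ n)‖ ≤ ‖k‖ + 1 := by
    intro n
    have := hd _ (hf (σ n)) k hk
    linarith [norm_le_insert' (f (σ n)) k]
  obtain ⟨z, hz⟩ := hR U (fun n => f (σ n)) _ hbd
  have hzC : z ∈ C := mem_of_weakLim hz hcv hcl (Eventually.of_forall fun n => hf (σ n))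
  set r : ℝ := 1 - ε / 2 with hr
  have hzk : ∀ y ∈ C, ‖z - y‖ ≤ r := fun y hy =>
    norm_sub_le_of_weakLim hz y (hU (by
      filter_upwards [(hKC hy).2 (ε / 2) (by linarith)] with n hn
      linarith))
  set E : Set X := C ∩ ⋂ y ∈ C, Metric.closedBall y r with hE
  have hCE : C ⊆ E := by
    refine hmin E inter_subset_left ⟨z, hzC, mem_iInter₂.2 fun y hy =>
      mem_closedBall_iff_norm.2 (hzk y hy)⟩ ?_ ?_ ?_
    · exact hcl.inter (isClosed_biInter fun y _ => Metric.isClosed_closedBall)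
    · exact hcv.inter (convex_iInter₂ fun y _ => convex_closedBall _ _)
    · intro x hx
      refine ⟨hmaps hx.1, mem_iInter₂.2 fun y hy => ?_⟩
      set F : Set X := C ∩ Metric.closedBall (T x) r with hF
      have hTF : ∀ w ∈ C, T w ∈ F := fun w hw => ⟨hmaps hw, mem_closedBall_iff_norm.2 (by
        rw [norm_sub_rev]
        exact (lip_apply hT hx.1 hw).trans (mem_closedBall_iff_norm.1 (mem_iInter₂.1 hx.2 w hw)))⟩
      have hCF : C ⊆ closure (convexHull ℝ (T '' C)) := by
        have hsub : closure (convexHull ℝ (T '' C)) ⊆ C :=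
          closure_minimal (convexHull_min hmaps.image_subset hcv) hcl
        refine hmin _ hsub ?_ isClosed_closure (convex_convexHull ℝ _).closure ?_
        · exact ⟨T k, subset_closure (subset_convexHull ℝ _ (mem_image_of_mem T hk))⟩
        · exact fun w hw => subset_closure (subset_convexHull ℝ _ (mem_image_of_mem T (hsub hw)))
      have hyF : y ∈ F := closure_minimal
        (convexHull_min (image_subset_iff.2 hTF) (hcv.inter (convex_closedBall _ _)))
        (hcl.inter Metric.isClosed_closedBall) (hCF hy)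
      exact Metric.mem_closedBall'.1 hyF.2
  obtain ⟨x, hx, y, hy, hxy⟩ := hd' r (by rw [hr]; linarith)
  have := mem_closedBall_iff_norm.1 (mem_iInter₂.1 (hCE hx).2 y hy)
  linarith

/-- Existence of a minimal nonempty closed convex invariant subset. -/
theorem exists_minimal_invariant
    (hX : Function.Surjective (NormedSpace.inclusionInDoubleDual ℝ X))
    {C : Set X} (hne : C.Nonempty) (hcl : IsClosed C) (hcv : Convex ℝ C)
    (hbd : Bornology.IsBounded C) {T : X → X} (hmaps : MapsTo T C C) :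
    ∃ K ⊆ C, K.Nonempty ∧ IsClosed K ∧ Convex ℝ K ∧ MapsTo T K K ∧
      ∀ E ⊆ K, E.Nonempty → IsClosed E → Convex ℝ E → MapsTo T E E → K ⊆ E := by
  set S : Set (Set X) := {E | E ⊆ C ∧ E.Nonempty ∧ IsClosed E ∧ Convex ℝ E ∧ MapsTo T E E}
  obtain ⟨m, -, hm⟩ := zorn_superset_nonempty S (fun c hcS hchain hcne => by
    haveI : Nonempty c := hcne.to_subtype
    choose p hp using fun s : c => (hcS s.2).2.1
    let G : Filter c := ⨅ s : c, 𝓟 {t : c | (t : Set X) ⊆ s}
    haveI : G.NeBot := iInf_neBot_of_directed' (fun s t => by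
      rcases hchain.total s.2 t.2 with h | h
      · exact ⟨s, le_rfl, principal_mono.2 fun u hu => Subset.trans hu h⟩
      · exact ⟨t, principal_mono.2 fun u hu => Subset.trans hu h, le_rfl⟩)
      (fun s => principal_neBot_iff.2 ⟨s, Subset.rfl⟩)
    obtain ⟨M, hM⟩ := hbd.exists_norm_le
    obtain ⟨w, hw⟩ := exists_weakLim_of_surjective hX (Ultrafilter.of G) p M
      fun s => hM _ ((hcS s.2).1 (hp s))
    have hmem : ∀ s : c, w ∈ (s : Set X) := fun s =>
      mem_of_weakLim hw (hcS s.2).2.2.2.1 (hcS s.2).2.2.1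
        (Ultrafilter.of_le G (mem_of_superset (mem_iInf_of_mem s (mem_principal_self _))
          fun u hu => hu (hp u)))
    obtain ⟨s₀, hs₀⟩ := hcne
    refine ⟨⋂₀ c, ⟨(sInter_subset_of_mem hs₀).trans (hcS hs₀).1,
      ⟨w, fun s hs => hmem ⟨s, hs⟩⟩, isClosed_sInter fun s hs => (hcS hs).2.2.1,
      convex_sInter fun s hs => (hcS hs).2.2.2.1, ?_⟩, fun s hs => sInter_subset_of_mem hs⟩
    exact fun x hx s hs => (hcS hs).2.2.2.2 (hx s hs))
    C ⟨Subset.rfl, hne, hcl, hcv, hmaps⟩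
  obtain ⟨h1, h2, h3, h4, h5⟩ := hm.prop
  exact ⟨m, h1, h2, h3, h4, h5, fun E hE a b c d => hm.le_of_le
    ⟨hE.trans h1, a, b, c, d⟩ hE⟩

/-- Approximate fixed point sequences exist. -/
theorem exists_afps [CompleteSpace X] {C : Set X} (hne : C.Nonempty) (hcl : IsClosed C)
    (hcv : Convex ℝ C) (hd : ∀ x ∈ C, ∀ y ∈ C, ‖x - y‖ ≤ 1) {T : X → X} (hmaps : MapsTo T C C)
    (hT : LipschitzOnWith 1 T C) :
    ∃ f : ℕ → X, (∀ n, f n ∈ C) ∧ Tendsto (fun n => ‖T (f n) - f n‖) atTop (𝓝 0) := by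
  obtain ⟨x₀, hx₀⟩ := hne
  have key : ∀ n : ℕ, ∃ y ∈ C, ‖T y - y‖ ≤ 1 / ((n : ℝ) + 1) := by
    intro n
    set t : ℝ := 1 / ((n : ℝ) + 1) with ht
    have ht0 : 0 < t := by rw [ht]; positivity
    have ht1 : t ≤ 1 := by
      rw [ht, div_le_one (by positivity)]
      linarith [(Nat.cast_nonneg n : (0 : ℝ) ≤ n)]
    set G : X → X := fun y => (1 - t) • T y + t • x₀ with hG
    have hGm : MapsTo G C C := fun y hy => hcv (hmaps hy) hx₀ (by linarith) ht0.le (by ring)
    have hcon : ContractingWith (Real.toNNReal (1 - t)) (hGm.restrict G C C) := by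
      refine ⟨by rw [Real.toNNReal_lt_one]; linarith,
        LipschitzWith.of_dist_le_mul fun a b => ?_⟩
      rw [Subtype.dist_eq, Subtype.dist_eq, MapsTo.val_restrict_apply, MapsTo.val_restrict_apply,
        dist_eq_norm, dist_eq_norm, Real.coe_toNNReal _ (by linarith)]
      have : G a - G b = (1 - t) • (T a - T b) := by simp only [hG, smul_sub]; abel
      rw [this, norm_smul, Real.norm_of_nonneg (by linarith : (0:ℝ) ≤ 1 - t)]
      exact mul_le_mul_of_nonneg_left (lip_apply hT a.2 b.2) (by linarith)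
    obtain ⟨y, hy, hfix, -, -⟩ :=
      hcon.exists_fixedPoint' hcl.isComplete hGm hx₀ (edist_ne_top _ _)
    refine ⟨y, hy, ?_⟩
    have hy' : T y - y = t • (T y - x₀) := by
      have : (1 - t) • T y + t • x₀ = y := hfix
      nth_rewrite 2 [← this]
      rw [sub_smul, one_smul, smul_sub]
      abel
    rw [hy', norm_smul, Real.norm_of_nonneg ht0.le]
    exact mul_le_of_le_one_right ht0.le (hd _ (hmaps hy) _ hx₀)
  choose f hf hf' using key
  exact ⟨f, hf, squeeze_zero (fun n => norm_nonneg _) hf'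
    tendsto_one_div_add_atTop_nhds_zero_nat⟩

end Vale.Agent.P079
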