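import Vale.Agent.P079.Basic

/-!
Averaged secant operators of a nonexpansive map over boxes spanned by a sequence of directions.
-/

namespace Vale.Agent.P079

open Filter Topology Set

variable {X : Type*} [NormedAddCommGroup X] [NormedSpace ℝ X]

/-- The point with box coordinates `t` in the first `N` directions. -/
def pt (d : ℕ → X) (w : ℕ → ℝ) (N : ℕ) (t : ℕ → ℝ) : X :=
  ∑ m ∈ Finset.range N, (t m * w m) • d m

theorem comb_mem {ι : Type*} {C : Set X} (hcv : Convex ℝ C) (h0 : (0 : X) ∈ C) (s : Finset ι)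
    (c : ι → ℝ) (d : ι → X) (hc : ∀ i ∈ s, 0 ≤ c i) (hs : ∑ i ∈ s, c i ≤ 1)
    (hd : ∀ i ∈ s, d i ∈ C) : (∑ i ∈ s, c i • d i) ∈ C := by
  rcases (Finset.sum_nonneg hc).lt_or_eq with hpos | hzero
  · have h1 : s.centerMass c d ∈ C := hcv.centerMass_mem hc hpos hd
    have h2 : (∑ i ∈ s, c i) • s.centerMass c d ∈ C :=
      hcv.smul_mem_of_zero_mem h0 h1 ⟨hpos.le, hs⟩
    rwa [Finset.centerMass, smul_smul, mul_inv_cancel₀ hpos.ne', one_smul] at h2
  · have hall := (Finset.sum_eq_zero_iff_of_nonneg hc).1 hzero.symm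
    rw [Finset.sum_eq_zero fun i hi => by rw [hall i hi, zero_smul]]
    exact h0

theorem pt_mem {C : Set X} (hcv : Convex ℝ C) (h0 : (0 : X) ∈ C) {d : ℕ → X}
    (hd : ∀ i, d i ∈ C) {w : ℕ → ℝ} (hw : ∀ i, 0 < w i)
    (hsum : ∀ N, ∑ i ∈ Finset.range N, w i ≤ 1) (N : ℕ) {t : ℕ → ℝ}
    (ht : ∀ m, 0 ≤ t m ∧ t m ≤ 1) : pt d w N t ∈ C :=
  comb_mem hcv h0 _ _ _ (fun m _ => mul_nonneg (ht m).1 (hw m).le)
    ((Finset.sum_le_sum fun m _ => mul_le_of_le_one_left (hw m).le (ht m).2).trans (hsum N))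
    (fun m _ => hd m)

/-- Clamped grid coordinate. -/
noncomputable def cl (N : ℕ) (v : ℤ) : ℝ := min 1 (max 0 ((v : ℝ) / N))

theorem cl_mem (N : ℕ) (v : ℤ) : 0 ≤ cl N v ∧ cl N v ≤ 1 :=
  ⟨le_min zero_le_one (le_max_left _ _), min_le_left _ _⟩

theorem abs_cl_sub_le (N : ℕ) (a b : ℤ) : |cl N (a + b) - cl N a| ≤ |(b : ℝ)| / N := by
  unfold cl
  refine (abs_min_sub_min_le_max _ _ _ _).trans (max_le ?_ ?_)
  · rw [sub_self, abs_zero]; positivity
  refine (abs_max_sub_max_le_max _ _ _ _).trans (max_le ?_ ?_)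
  · rw [sub_self, abs_zero]; positivity
  · rw [← sub_div, abs_div, Nat.abs_cast]
    push_cast
    simp

theorem cl_eq {N : ℕ} (hN : 0 < N) {v : ℤ} (h0 : 0 ≤ v) (h1 : v ≤ N) :
    cl N v = (v : ℝ) / N := by
  have hN' : (0 : ℝ) < N := by exact_mod_cast hN
  have e0 : (0 : ℝ) ≤ (v : ℝ) := by exact_mod_cast h0
  have e1 : (v : ℝ) ≤ N := by exact_mod_cast h1
  unfold cl
  rw [max_eq_right (div_nonneg e0 hN'.le), min_eq_right ((div_le_one hN').2 e1)]

/-- Integer coordinates of a grid point. -/
def jz {N : ℕ} (j : Fin N → Fin N) (m : ℕ) : ℤ :=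
  if h : m < N then ((j ⟨m, h⟩ : Fin N) : ℤ) else 0

theorem jz_fin {N : ℕ} (j : Fin N → Fin N) (m : Fin N) : jz j m = ((j m : Fin N) : ℤ) := by
  simp [jz]

theorem card_bad_coord {N : ℕ} (c : ℤ) :
    (Finset.univ.filter fun v : Fin N => ¬(0 ≤ (v : ℤ) + c ∧ (v : ℤ) + c < N)).card
      ≤ c.natAbs := by
  refine le_of_le_of_eq (Finset.card_le_card_of_injOn
    (fun v : Fin N => if 0 ≤ c then N - 1 - (v : ℕ) else (v : ℕ)) (t := Finset.range c.natAbs)
    ?_ ?_) (Finset.card_range _)
  · intro v hv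
    simp only [Finset.coe_filter, Finset.mem_univ, true_and, Set.mem_ofPred_eq] at hv
    simp only [Finset.coe_range, Set.mem_Iio]
    have := v.isLt
    split_ifs <;> omega
  · intro v _ v' _ h
    have := v.isLt
    have := v'.isLt
    simp only at h
    ext
    split_ifs at h <;> omega

theorem card_bad_le {N : ℕ} (c : Fin N → ℤ) :
    (N * (Finset.univ.filter fun j : Fin N → Fin N =>
        ∃ m, ¬(0 ≤ (j m : ℤ) + c m ∧ (j m : ℤ) + c m < N)).card : ℕ)
      ≤ (∑ m, (c m).natAbs) * N ^ N := by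
  classical
  set B : Fin N → Finset (Fin N) := fun m =>
    Finset.univ.filter fun v : Fin N => ¬(0 ≤ (v : ℤ) + c m ∧ (v : ℤ) + c m < N) with hB
  have hsub : (Finset.univ.filter fun j : Fin N → Fin N =>
        ∃ m, ¬(0 ≤ (j m : ℤ) + c m ∧ (j m : ℤ) + c m < N)) ⊆
      Finset.univ.biUnion fun m =>
        Fintype.piFinset (Function.update (fun _ => (Finset.univ : Finset (Fin N))) m (B m)) := by
    intro j hj
    simp only [Finset.mem_filter, Finset.mem_univ, true_and] at hj
    obtain ⟨m, hm⟩ := hj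
    simp only [Finset.mem_biUnion, Finset.mem_univ, true_and, Fintype.mem_piFinset]
    refine ⟨m, fun m' => ?_⟩
    by_cases hmm : m' = m
    · subst hmm
      rw [Function.update_self]
      simp only [hB, Finset.mem_filter, Finset.mem_univ, true_and]
      exact hm
    · rw [Function.update_of_ne hmm]
      exact Finset.mem_univ _
  refine (Nat.mul_le_mul_left N ((Finset.card_le_card hsub).trans Finset.card_biUnion_le)).trans ?_
  rw [Finset.mul_sum, Finset.sum_mul]
  refine Finset.sum_le_sum fun m _ => ?_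
  rw [Fintype.card_piFinset, Finset.prod_congr rfl (g := Function.update (fun _ => N) m (B m).card)
    (fun x _ => by by_cases hx : x = m <;> simp [hx]), Finset.prod_update_of_mem (Finset.mem_univ m)]
  have hN : 0 < N := Fin.pos m
  rw [Finset.prod_const, Finset.card_sdiff_of_subset (by simp), Finset.card_univ, Finset.card_singleton,
    Fintype.card_fin]
  calc N * ((B m).card * N ^ (N - 1)) = (B m).card * (N ^ (N - 1) * N) := by ring
    _ = (B m).card * N ^ N := by rw [← pow_succ, Nat.sub_add_cancel hN]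
    _ ≤ (c m).natAbs * N ^ N := Nat.mul_le_mul_right _ (card_bad_coord _)

theorem sum_shift_le {N : ℕ} (F : (Fin N → ℤ) → X) {b : ℝ}
    (hF : ∀ z, ‖F z‖ ≤ b) (c : Fin N → ℤ) :
    (N : ℝ) * ‖(∑ j : Fin N → Fin N, F (fun m => (j m : ℤ) + c m)) -
      ∑ j : Fin N → Fin N, F (fun m => (j m : ℤ))‖
      ≤ 2 * b * (∑ m, |(c m : ℝ)|) * (N : ℝ) ^ N := by
  classical
  set p : (Fin N → Fin N) → Prop :=
    fun j => ∃ m, ¬(0 ≤ (j m : ℤ) + c m ∧ (j m : ℤ) + c m < N) with hp
  set q : (Fin N → Fin N) → Prop :=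
    fun j => ∃ m, ¬(0 ≤ (j m : ℤ) + -c m ∧ (j m : ℤ) + -c m < N) with hq
  have hb : 0 ≤ b := (norm_nonneg _).trans (hF fun _ => 0)
  have hgood : ∑ j ∈ Finset.univ.filter (fun j => ¬ p j), F (fun m => (j m : ℤ) + c m) =
      ∑ j ∈ Finset.univ.filter (fun j => ¬ q j), F (fun m => (j m : ℤ)) := by
    simp only [hp, hq, not_exists, not_not]
    refine Finset.sum_bij'
      (fun j hj m => ⟨((j m : ℤ) + c m).toNat, by
        have := (Finset.mem_filter.1 hj).2 m; omega⟩)
      (fun j hj m => ⟨((j m : ℤ) + -c m).toNat, by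
        have := (Finset.mem_filter.1 hj).2 m; omega⟩)
      ?_ ?_ ?_ ?_ ?_
    · intro j hj
      refine Finset.mem_filter.2 ⟨Finset.mem_univ _, fun m => ?_⟩
      have := (Finset.mem_filter.1 hj).2 m
      have := (j m).isLt
      simp only
      omega
    · intro j hj
      refine Finset.mem_filter.2 ⟨Finset.mem_univ _, fun m => ?_⟩
      have := (Finset.mem_filter.1 hj).2 m
      have := (j m).isLt
      simp only
      omega
    · intro j hj
      funext m
      ext
      have := (Finset.mem_filter.1 hj).2 m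
      simp only
      omega
    · intro j hj
      funext m
      ext
      have := (Finset.mem_filter.1 hj).2 m
      simp only
      omega
    · intro j hj
      congr 1
      funext m
      have := (Finset.mem_filter.1 hj).2 m
      simp only
      omega
  rw [← Finset.sum_filter_add_sum_filter_not Finset.univ p (fun j => F (fun m => (j m : ℤ) + c m)),
    ← Finset.sum_filter_add_sum_filter_not Finset.univ q (fun j => F (fun m => (j m : ℤ))),
    hgood, add_sub_add_right_eq_sub]
  have h1 : (N : ℝ) * (Finset.univ.filter p).card ≤ (∑ m, |(c m : ℝ)|) * (N : ℝ) ^ N := by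
    have h : ((N * (Finset.univ.filter p).card : ℕ) : ℝ) ≤
        (((∑ m, (c m).natAbs) * N ^ N : ℕ) : ℝ) := by exact_mod_cast card_bad_le c
    simpa [Nat.cast_natAbs] using h
  have h2 : (N : ℝ) * (Finset.univ.filter q).card ≤ (∑ m, |(c m : ℝ)|) * (N : ℝ) ^ N := by
    have h : ((N * (Finset.univ.filter q).card : ℕ) : ℝ) ≤
        (((∑ m, (-c m).natAbs) * N ^ N : ℕ) : ℝ) := by exact_mod_cast card_bad_le fun m => -c m
    simpa [Nat.cast_natAbs] using h
  refine (mul_le_mul_of_nonneg_left ((norm_sub_le _ _).trans (add_le_add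
    ((norm_sum_le _ _).trans (Finset.sum_le_sum fun j _ => hF _))
    ((norm_sum_le _ _).trans (Finset.sum_le_sum fun j _ => hF _)))) (Nat.cast_nonneg N)).trans ?_
  simp only [Finset.sum_const, nsmul_eq_mul]
  have e1 := mul_le_mul_of_nonneg_left h1 hb
  have e2 := mul_le_mul_of_nonneg_left h2 hb
  nlinarith [e1, e2]

/-- Weighted coefficient sum of an integer shift. -/
noncomputable def bk (w : ℕ → ℝ) (k : ℕ →₀ ℤ) : ℝ := ∑ m ∈ k.support, |(k m : ℝ)| * w m

/-- The size of an integer shift. -/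
noncomputable def sk (k : ℕ →₀ ℤ) : ℝ := ∑ m ∈ k.support, |(k m : ℝ)|

theorem range_sum_le_support (g : ℕ → ℝ) (hg : ∀ m, 0 ≤ g m) (k : ℕ →₀ ℤ)
    (h0 : ∀ m, k m = 0 → g m = 0) (N : ℕ) :
    ∑ m ∈ Finset.range N, g m ≤ ∑ m ∈ k.support, g m := by
  refine (Finset.sum_le_sum_of_subset_of_nonneg
    (Finset.subset_union_left (s₂ := k.support)) fun m _ _ => hg m).trans (le_of_eq ?_)
  refine (Finset.sum_subset Finset.subset_union_right fun m _ hm => h0 m ?_).symm
  simpa using hm

/-- The sampled map. -/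
noncomputable def smp (f : X → X) (d : ℕ → X) (w : ℕ → ℝ) (N : ℕ) (z : ℕ → ℤ) : X :=
  f (pt d w N fun m => cl N (z m))

/-- Averaged increments. -/
noncomputable def avgInc (f : X → X) (d : ℕ → X) (w : ℕ → ℝ) (N : ℕ) (k : ℕ →₀ ℤ) : X :=
  ((N : ℝ) / (N : ℝ) ^ N) •
    ∑ j : Fin N → Fin N, (smp f d w N (fun m => jz j m + k m) - smp f d w N (jz j))

section

variable {C : Set X} (hcv : Convex ℝ C) (h0 : (0 : X) ∈ C) (hnorm : ∀ x ∈ C, ‖x‖ ≤ 1)
  {f : X → X} (hL : LipschitzOnWith 1 f C) {d : ℕ → X} (hdC : ∀ i, d i ∈ C) {w : ℕ → ℝ}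
  (hw : ∀ i, 0 < w i) (hsum : ∀ N, ∑ i ∈ Finset.range N, w i ≤ 1)

include hcv h0 hnorm hL hdC hw hsum

theorem norm_smp_sub_le (N : ℕ) (z : ℕ → ℤ) (k : ℕ →₀ ℤ) :
    ‖smp f d w N (fun m => z m + k m) - smp f d w N z‖ ≤ bk w k / N := by
  refine (lip_apply hL (pt_mem hcv h0 hdC hw hsum N fun m => cl_mem _ _)
    (pt_mem hcv h0 hdC hw hsum N fun m => cl_mem _ _)).trans ?_
  rw [pt, pt, ← Finset.sum_sub_distrib]
  refine (norm_sum_le _ _).trans ?_
  calc ∑ m ∈ Finset.range N, ‖(cl N (z m + k m) * w m) • d m - (cl N (z m) * w m) • d m‖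
      ≤ ∑ m ∈ Finset.range N, |(k m : ℝ)| * w m / N := Finset.sum_le_sum fun m _ => by
        rw [← sub_smul, norm_smul, Real.norm_eq_abs, ← sub_mul, abs_mul,
          abs_of_pos (hw m), mul_div_right_comm]
        calc |cl N (z m + k m) - cl N (z m)| * w m * ‖d m‖
            ≤ |cl N (z m + k m) - cl N (z m)| * w m :=
              mul_le_of_le_one_right (mul_nonneg (abs_nonneg _) (hw m).le) (hnorm _ (hdC m))
          _ ≤ |(k m : ℝ)| / N * w m :=
              mul_le_mul_of_nonneg_right (abs_cl_sub_le _ _ _) (hw m).le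
    _ ≤ bk w k / N := by
        rw [← Finset.sum_div]
        exact div_le_div_of_nonneg_right (range_sum_le_support _
          (fun m => mul_nonneg (abs_nonneg _) (hw m).le) k (fun m hm => by simp [hm]) N)
          (Nat.cast_nonneg N)

theorem norm_avgInc_le_bk (N : ℕ) (k : ℕ →₀ ℤ) : ‖avgInc f d w N k‖ ≤ bk w k := by
  have hb : 0 ≤ bk w k := Finset.sum_nonneg fun m _ => mul_nonneg (abs_nonneg _) (hw m).le
  rcases Nat.eq_zero_or_pos N with rfl | hN
  · simpa [avgInc] using hb
  rw [avgInc, norm_smul, Real.norm_of_nonneg (by positivity)]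
  refine (mul_le_mul_of_nonneg_left ((norm_sum_le _ _).trans (Finset.sum_le_sum fun j _ =>
    norm_smp_sub_le hcv h0 hnorm hL hdC hw hsum N (jz j) k)) (by positivity)).trans (le_of_eq ?_)
  simp only [Finset.sum_const, Finset.card_univ, Fintype.card_fun, Fintype.card_fin,
    nsmul_eq_mul, Nat.cast_pow]
  have : (N : ℝ) ≠ 0 := by positivity
  field_simp

theorem norm_avgInc_add (N : ℕ) (k l : ℕ →₀ ℤ) :
    ‖avgInc f d w N (k + l) - avgInc f d w N k - avgInc f d w N l‖
      ≤ 2 * bk w l * sk k / N := by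
  rcases Nat.eq_zero_or_pos N with rfl | hN
  · simp [avgInc]
  set ext' : (Fin N → ℤ) → ℕ → ℤ := fun z m => if h : m < N then z ⟨m, h⟩ else 0 with hext
  set F : (Fin N → ℤ) → X := fun z =>
    smp f d w N (fun m => ext' z m + l m) - smp f d w N (ext' z) with hFdef
  have hpt : ∀ u v : ℕ → ℤ, (∀ m < N, u m = v m) → smp f d w N u = smp f d w N v := by
    intro u v huv
    unfold smp pt
    congr 1
    exact Finset.sum_congr rfl fun m hm => by simp only [huv m (Finset.mem_range.1 hm)]
  have heq : avgInc f d w N (k + l) - avgInc f d w N k - avgInc f d w N l =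
      ((N : ℝ) / (N : ℝ) ^ N) • ((∑ j : Fin N → Fin N, F (fun m => (j m : ℤ) + k m)) -
        ∑ j : Fin N → Fin N, F (fun m => (j m : ℤ))) := by
    simp only [avgInc, ← smul_sub, ← Finset.sum_sub_distrib]
    congr 1
    refine Finset.sum_congr rfl fun j _ => ?_
    simp only [hFdef]
    rw [hpt (fun m => ext' (fun m => (j m : ℤ) + k m) m + l m) (fun m => jz j m + (k + l) m)
        (fun m hm => by simp [hext, hm, jz, add_assoc]),
      hpt (ext' fun m => (j m : ℤ) + k m) (fun m => jz j m + k m)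
        (fun m hm => by simp [hext, hm, jz]),
      hpt (fun m => ext' (fun m => (j m : ℤ)) m + l m) (fun m => jz j m + l m)
        (fun m hm => by simp [hext, hm, jz]),
      hpt (ext' fun m => (j m : ℤ)) (jz j) (fun m hm => by simp [hext, hm, jz])]
    abel
  rw [heq, norm_smul, Real.norm_of_nonneg (by positivity)]
  have hbound := sum_shift_le F (b := bk w l / N)
    (fun z => norm_smp_sub_le hcv h0 hnorm hL hdC hw hsum N _ l) (fun m : Fin N => k m)
  have hsk : ∑ m : Fin N, |(k m : ℝ)| ≤ sk k := by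
    rw [Fin.sum_univ_eq_sum_range (fun m => |(k m : ℝ)|)]
    exact range_sum_le_support _ (fun m => abs_nonneg _) k (fun m hm => by simp [hm]) N
  have hN' : (0 : ℝ) < N := by exact_mod_cast hN
  have hb : 0 ≤ bk w l := Finset.sum_nonneg fun m _ => mul_nonneg (abs_nonneg _) (hw m).le
  rw [div_mul_eq_mul_div, div_le_iff₀ (by positivity)]
  refine hbound.trans ?_
  calc 2 * (bk w l / N) * (∑ m : Fin N, |(k m : ℝ)|) * (N : ℝ) ^ N
      ≤ 2 * (bk w l / N) * sk k * (N : ℝ) ^ N := by gcongr
    _ = 2 * bk w l * sk k / N * (N : ℝ) ^ N := by ring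

theorem norm_avgInc_le (N : ℕ) (hN : 0 < N) (k : ℕ →₀ ℤ) (hk : ∀ m ∈ k.support, m < N) :
    ‖avgInc f d w N k‖ ≤
      ‖∑ m ∈ k.support, ((k m : ℝ) * w m) • d m‖ + bk w k * sk k / N := by
  classical
  set v : X := ∑ m ∈ k.support, ((k m : ℝ) * w m) • d m
  set p : (Fin N → Fin N) → Prop :=
    fun j => ∃ m : Fin N, ¬(0 ≤ (j m : ℤ) + k m ∧ (j m : ℤ) + k m < N)
  have hN' : (0 : ℝ) < N := by exact_mod_cast hN
  have hterm : ∀ j, ‖smp f d w N (fun m => jz j m + k m) - smp f d w N (jz j)‖ ≤
      ‖v‖ / N + if p j then bk w k / N else 0 := by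
    intro j
    by_cases hj : p j
    · rw [if_pos hj]
      exact (norm_smp_sub_le hcv h0 hnorm hL hdC hw hsum N _ k).trans
        (le_add_of_nonneg_left (by positivity))
    · rw [if_neg hj, add_zero]
      simp only [p, not_exists, not_not] at hj
      refine (lip_apply hL (pt_mem hcv h0 hdC hw hsum N fun m => cl_mem _ _)
        (pt_mem hcv h0 hdC hw hsum N fun m => cl_mem _ _)).trans (le_of_eq ?_)
      have hv : v = ∑ m ∈ Finset.range N, ((k m : ℝ) * w m) • d m :=
        Finset.sum_subset (fun m hm => Finset.mem_range.2 (hk m hm))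
          fun m _ hm => by simp [Finsupp.notMem_support_iff.1 hm]
      rw [pt, pt, ← Finset.sum_sub_distrib, hv]
      rw [show ∑ m ∈ Finset.range N,
          ((cl N (jz j m + k m) * w m) • d m - (cl N (jz j m) * w m) • d m) =
          (N : ℝ)⁻¹ • ∑ m ∈ Finset.range N, ((k m : ℝ) * w m) • d m from ?_,
        norm_smul, norm_inv, Real.norm_of_nonneg hN'.le, inv_mul_eq_div]
      rw [Finset.smul_sum]
      refine Finset.sum_congr rfl fun m hm => ?_
      have hm' := Finset.mem_range.1 hm
      have := hj ⟨m, hm'⟩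
      have hjm := (j ⟨m, hm'⟩).isLt
      simp only [jz, dif_pos hm']
      rw [cl_eq hN this.1 this.2.le, cl_eq hN (by positivity) (by omega), ← sub_smul, smul_smul]
      congr 1
      push_cast
      field_simp
      ring
  rw [avgInc, norm_smul, Real.norm_of_nonneg (by positivity)]
  refine (mul_le_mul_of_nonneg_left ((norm_sum_le _ _).trans (Finset.sum_le_sum fun j _ => hterm j))
    (by positivity)).trans ?_
  rw [Finset.sum_add_distrib, ← Finset.sum_filter]
  simp only [Finset.sum_const, Finset.card_univ, Fintype.card_fun, Fintype.card_fin,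
    nsmul_eq_mul, Nat.cast_pow]
  have hcard : (N : ℝ) * (Finset.univ.filter p).card ≤ sk k * (N : ℝ) ^ N := by
    have h : ((N * (Finset.univ.filter p).card : ℕ) : ℝ) ≤
        (((∑ m : Fin N, (k m).natAbs) * N ^ N : ℕ) : ℝ) := by
      exact_mod_cast card_bad_le fun m : Fin N => k m
    push_cast [Nat.cast_natAbs] at h
    refine h.trans (mul_le_mul_of_nonneg_right ?_ (by positivity))
    rw [Fin.sum_univ_eq_sum_range (fun m => |(k m : ℝ)|)]
    exact range_sum_le_support _ (fun m => abs_nonneg _) k (fun m hm => by simp [hm]) N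
  have hb : 0 ≤ bk w k := Finset.sum_nonneg fun m _ => mul_nonneg (abs_nonneg _) (hw m).le
  rw [mul_add]
  refine add_le_add (le_of_eq (by field_simp)) ?_
  rw [div_mul_eq_mul_div, div_le_iff₀ (by positivity)]
  calc (N : ℝ) * ((Finset.univ.filter p).card * (bk w k / N))
      = ((N : ℝ) * (Finset.univ.filter p).card) * (bk w k / N) := by ring
    _ ≤ sk k * (N : ℝ) ^ N * (bk w k / N) := mul_le_mul_of_nonneg_right hcard (by positivity)
    _ = bk w k * sk k / N * (N : ℝ) ^ N := by ring

theorem avgInc_single_mem {N i : ℕ} (hi : i < N) {K : Set X} (hK : Convex ℝ K)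
    (hmem : ∀ t : ℕ → ℝ, (∀ m, 0 ≤ t m ∧ t m ≤ 1) →
      f (pt d w N (Function.update t i 1)) - f (pt d w N (Function.update t i 0)) ∈ K) :
    avgInc f d w N (Finsupp.single i 1) ∈ K := by
  classical
  have hN : 0 < N := by omega
  have hN' : (0 : ℝ) < N := by exact_mod_cast hN
  set G : (Fin N → Fin N) → X := fun j =>
    smp f d w N (fun m => jz j m + (Finsupp.single i (1 : ℤ)) m) - smp f d w N (jz j)
  set Dl : (Fin N → Fin N) → X := fun j =>
    smp f d w N (Function.update (jz j) i (N : ℤ)) - smp f d w N (Function.update (jz j) i 0)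
  have hswap : ∑ j, Dl j = (N : ℝ) • ∑ j, G j := by
    have hinner : ∀ j, ∑ c : Fin N, G (Function.update j ⟨i, hi⟩ c) = Dl j := by
      intro j
      set u : ℕ → X := fun c => smp f d w N (Function.update (jz j) i (c : ℤ))
      have hG : ∀ c : Fin N, G (Function.update j ⟨i, hi⟩ c) = u (c + 1) - u c := by
        intro c
        have hj' : jz (Function.update j ⟨i, hi⟩ c) = Function.update (jz j) i (c : ℤ) := by
          funext m
          by_cases hm : m = i
          · subst hm; simp [jz, hi]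
          · rw [Function.update_of_ne hm]
            unfold jz
            split
            · rw [Function.update_of_ne]
              simpa [Fin.ext_iff] using hm
            · rfl
        simp only [G, u, hj']
        congr 2
        funext m
        by_cases hm : m = i
        · subst hm; simp
        · simp [hm]
      rw [Finset.sum_congr rfl fun c _ => hG c,
        Fin.sum_univ_eq_sum_range (fun c => u (c + 1) - u c), Finset.sum_range_sub]
      simp [u, Dl]
    calc ∑ j, Dl j = ∑ j, ∑ c : Fin N, G (Function.update j ⟨i, hi⟩ c) :=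
          (Finset.sum_congr rfl fun j _ => hinner j).symm
      _ = ∑ x : (Fin N → Fin N) × Fin N, G (Function.update x.1 ⟨i, hi⟩ x.2) :=
          (Fintype.sum_prod_type (fun x : (Fin N → Fin N) × Fin N =>
            G (Function.update x.1 ⟨i, hi⟩ x.2))).symm
      _ = ∑ x : (Fin N → Fin N) × Fin N, G x.1 := by
          have hinv : Function.Involutive (fun x : (Fin N → Fin N) × Fin N =>
              (Function.update x.1 ⟨i, hi⟩ x.2, x.1 ⟨i, hi⟩)) := fun x =>
            Prod.ext (by simp only [Function.update_idem, Function.update_eq_self])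
              (by simp only [Function.update_self])
          exact Fintype.sum_equiv hinv.toPerm _ _ fun x => rfl
      _ = (N : ℝ) • ∑ j, G j := by
          rw [Fintype.sum_prod_type, Finset.smul_sum]
          simp [Nat.cast_smul_eq_nsmul]
  have hval : avgInc f d w N (Finsupp.single i 1) = ∑ j, ((1 : ℝ) / (N : ℝ) ^ N) • Dl j := by
    rw [← Finset.smul_sum, hswap, smul_smul, div_mul_eq_mul_div, one_mul]
    rfl
  rw [hval]
  refine hK.sum_mem (fun j _ => by positivity) ?_ fun j _ => ?_
  · simp only [Finset.sum_const, Finset.card_univ, Fintype.card_fun, Fintype.card_fin,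
      nsmul_eq_mul, Nat.cast_pow]
    field_simp
  · have hupd : ∀ v : ℤ, (fun m => cl N (Function.update (jz j) i v m)) =
        Function.update (fun m => cl N (jz j m)) i (cl N v) := fun v => by
      funext m
      by_cases hm : m = i
      · subst hm; simp
      · simp [hm]
    have := hmem (fun m => cl N (jz j m)) (fun m => cl_mem _ _)
    simp only [Dl, smp, hupd]
    rwa [cl_eq hN (by positivity) le_rfl, cl_eq hN le_rfl (by positivity), Int.cast_natCast,
      div_self hN'.ne', Int.cast_zero, zero_div]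

/-- A linear contraction whose values on the directions lie in every closed convex set containing
all the sampled secants. -/
theorem exists_box_op [CompleteSpace X]
    (hR : ∀ (U : Ultrafilter ℕ) (x : ℕ → X) (M : ℝ), (∀ i, ‖x i‖ ≤ M) →
      ∃ v, ∀ g : StrongDual ℝ X, Tendsto (fun i => g (x i)) (U : Filter ℕ) (𝓝 (g v)))
    (hdense : Dense (Submodule.span ℝ (Set.range d) : Set X)) :
    ∃ D : X →L[ℝ] X, ‖D‖ ≤ 1 ∧ ∀ (i : ℕ) (K : Set X), IsClosed K → Convex ℝ K →
      (∀ N, i < N → ∀ t : ℕ → ℝ, (∀ m, 0 ≤ t m ∧ t m ≤ 1) →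
        f (pt d w N (Function.update t i 1)) - f (pt d w N (Function.update t i 0)) ∈ K) →
      w i • D (d i) ∈ K := by
  set U : Ultrafilter ℕ := Ultrafilter.of atTop
  have hU : (U : Filter ℕ) ≤ atTop := Ultrafilter.of_le _
  choose L hL' using fun k : ℕ →₀ ℤ => hR U (fun N => avgInc f d w N k) (bk w k)
    fun N => norm_avgInc_le_bk hcv h0 hnorm hL hdC hw hsum N k
  have hadd : ∀ k l, L (k + l) = L k + L l := by
    intro k l
    refine (SeparatingDual.eq_iff_forall_dual_eq (R := ℝ)).2 fun g => ?_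
    have h1 : Tendsto (fun N => g (avgInc f d w N (k + l) - avgInc f d w N k - avgInc f d w N l))
        (U : Filter ℕ) (𝓝 (g (L (k + l)) - g (L k) - g (L l))) := by
      simpa only [map_sub] using ((hL' (k + l) g).sub (hL' k g)).sub (hL' l g)
    have h2 : Tendsto (fun N => g (avgInc f d w N (k + l) - avgInc f d w N k - avgInc f d w N l))
        (U : Filter ℕ) (𝓝 0) := by
      refine Tendsto.mono_left (squeeze_zero_norm (fun N => ?_)
        (tendsto_const_div_atTop_nhds_zero_nat (‖g‖ * (2 * bk w l * sk k)))) hU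
      refine (g.le_opNorm _).trans ?_
      rw [mul_div_assoc]
      exact mul_le_mul_of_nonneg_left (norm_avgInc_add hcv h0 hnorm hL hdC hw hsum N k l)
        (norm_nonneg _)
    have := tendsto_nhds_unique h1 h2
    rw [map_add]
    linarith
  set v : (ℕ →₀ ℤ) → X := fun k => ∑ m ∈ k.support, ((k m : ℝ) * w m) • d m
  have hnormL : ∀ k, ‖L k‖ ≤ ‖v k‖ := by
    intro k
    refine le_of_forall_pos_le_add fun ε hε => ?_
    have hev : ∀ᶠ N in atTop, ‖avgInc f d w N k - 0‖ ≤ ‖v k‖ + ε := by
      filter_upwards [eventually_gt_atTop 0, eventually_gt_atTop (k.support.sup id),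
        (tendsto_const_div_atTop_nhds_zero_nat (bk w k * sk k)).eventually
          (eventually_le_nhds hε)] with N hN1 hN2 hN3
      rw [sub_zero]
      exact (norm_avgInc_le hcv h0 hnorm hL hdC hw hsum N hN1 k
        fun m hm => (Finset.le_sup (f := id) hm).trans_lt hN2).trans (by gcongr)
    simpa using norm_sub_le_of_weakLim (hL' k) 0 (hU hev)
  set Lh : (ℕ →₀ ℤ) →+ X := AddMonoidHom.mk' L hadd
  set c : ℕ → X := fun i => L (Finsupp.single i 1)
  set Φ : (ℕ →₀ ℝ) →ₗ[ℝ] X := Finsupp.linearCombination ℝ c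
  set e : (ℕ →₀ ℝ) →ₗ[ℝ] X := Finsupp.linearCombination ℝ fun i => w i • d i
  have hLc : ∀ k : ℕ →₀ ℤ, L k = ∑ m ∈ k.support, (k m : ℝ) • c m := by
    intro k
    have : L k = Lh k := rfl
    rw [this]
    conv_lhs => rw [← Finsupp.sum_single k, Finsupp.sum, map_sum]
    refine Finset.sum_congr rfl fun m _ => ?_
    rw [show Finsupp.single m (k m) = k m • Finsupp.single m (1 : ℤ) by simp, map_zsmul,
      ← Int.cast_smul_eq_zsmul ℝ]
    rfl
  have hbound : ∀ x, ‖Φ x‖ ≤ 1 * ‖e x‖ := by
    intro x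
    rw [one_mul]
    set kn : ℕ → (ℕ →₀ ℤ) := fun n => x.mapRange (fun a : ℝ => ⌊a * n⌋) (by simp)
    have hle : ∀ n : ℕ, ‖∑ m ∈ x.support, ((⌊x m * n⌋ : ℝ) / n) • c m‖ ≤
        ‖∑ m ∈ x.support, ((⌊x m * n⌋ : ℝ) / n * w m) • d m‖ := by
      intro n
      rcases Nat.eq_zero_or_pos n with rfl | hn
      · simp
      have hnn : (0 : ℝ) < n := by exact_mod_cast hn
      have hsub : (kn n).support ⊆ x.support := Finsupp.support_mapRange
      have e1 : ∑ m ∈ x.support, ((⌊x m * n⌋ : ℝ) / n) • c m = (n : ℝ)⁻¹ • L (kn n) := by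
        rw [hLc, Finset.smul_sum, Finset.sum_subset hsub fun m _ hm => by
          simp [Finsupp.notMem_support_iff.1 hm]]
        exact Finset.sum_congr rfl fun m _ => by
          rw [smul_smul, Finsupp.mapRange_apply, div_eq_inv_mul]
      have e2 : ∑ m ∈ x.support, ((⌊x m * n⌋ : ℝ) / n * w m) • d m = (n : ℝ)⁻¹ • v (kn n) := by
        simp only [v]
        rw [Finset.smul_sum, Finset.sum_subset hsub fun m _ hm => by
          simp [Finsupp.notMem_support_iff.1 hm]]
        exact Finset.sum_congr rfl fun m _ => by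
          rw [smul_smul, Finsupp.mapRange_apply, div_eq_inv_mul, mul_assoc]
      rw [e1, e2, norm_smul, norm_smul]
      exact mul_le_mul_of_nonneg_left (hnormL _) (norm_nonneg _)
    have hfl : ∀ a : ℝ, Tendsto (fun n : ℕ => (⌊a * n⌋ : ℝ) / n) atTop (𝓝 a) := by
      intro a
      rw [tendsto_iff_norm_sub_tendsto_zero]
      refine squeeze_zero' (Eventually.of_forall fun n => norm_nonneg _) ?_
        tendsto_one_div_atTop_nhds_zero_nat
      filter_upwards [eventually_gt_atTop 0] with n hn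
      have hnn : (0 : ℝ) < n := by exact_mod_cast hn
      rw [Real.norm_eq_abs, div_sub' hnn.ne', abs_div, abs_of_pos hnn]
      refine div_le_div_of_nonneg_right ?_ hnn.le
      rw [abs_le]
      constructor <;> nlinarith [Int.floor_le (a * n), Int.lt_floor_add_one (a * n)]
    refine le_of_tendsto_of_tendsto' (b := atTop) ?_ ?_ hle
    · have : Φ x = ∑ m ∈ x.support, x m • c m := Finsupp.linearCombination_apply ℝ x
      rw [this]
      exact (tendsto_finsetSum _ fun m _ => (hfl (x m)).smul_const (c m)).norm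
    · have : e x = ∑ m ∈ x.support, (x m * w m) • d m := by
        simp [e, Finsupp.linearCombination_apply, Finsupp.sum, smul_smul]
      rw [this]
      exact (tendsto_finsetSum _ fun m _ =>
        ((hfl (x m)).mul_const (w m)).smul_const (d m)).norm
  have hde : DenseRange e := by
    have : Submodule.span ℝ (Set.range d) ≤ LinearMap.range e := by
      rw [Submodule.span_le]
      rintro _ ⟨i, rfl⟩
      exact ⟨Finsupp.single i (w i)⁻¹, by simp [e, smul_smul, inv_mul_cancel₀ (hw i).ne']⟩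
    exact hdense.mono fun x hx => this hx
  refine ⟨Φ.extendOfNorm e, LinearMap.opNorm_extendOfNorm_le hde zero_le_one hbound,
    fun i K hKc hK hmem => ?_⟩
  have he : e (Finsupp.single i 1) = w i • d i := by simp [e]
  have : w i • (Φ.extendOfNorm e) (d i) = c i := by
    rw [← map_smul, ← he, LinearMap.extendOfNorm_eq hde ⟨1, hbound⟩]
    simp [Φ]
  rw [this]
  exact mem_of_weakLim (hL' _) hK hKc (hU (by
    filter_upwards [eventually_gt_atTop i] with N hN
    exact avgInc_single_mem hcv h0 hnorm hL hdC hw hsum hN hK (hmem N hN)))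

end

end Vale.Agent.P079
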