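import Vale.Agent.P079.Stage

/-!
Operators between atoms and the final contradiction.
-/

namespace Vale.Agent.P079

open Filter Topology Set

variable {X : Type*} [NormedAddCommGroup X] [NormedSpace ℝ X]

theorem pt_update (d : ℕ → X) (w : ℕ → ℝ) {N j : ℕ} (hj : j < N) (t : ℕ → ℝ) (c : ℝ) :
    pt d w N (Function.update t j c) = pt d w N (Function.update t j 0) + (c * w j) • d j := by
  have key : ∀ c : ℝ, pt d w N (Function.update t j c) =
      (c * w j) • d j + ∑ m ∈ (Finset.range N).erase j, (t m * w m) • d m := by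
    intro c
    rw [pt, ← Finset.add_sum_erase _ _ (Finset.mem_range.2 hj), Function.update_self]
    congr 1
    refine Finset.sum_congr rfl fun m hm => ?_
    rw [Function.update_of_ne (Finset.ne_of_mem_erase hm)]
  rw [key c, key 0, zero_mul, zero_smul, zero_add]
  abel

theorem update_mem_unit {t : ℕ → ℝ} (ht : ∀ m, 0 ≤ t m ∧ t m ≤ 1) (j : ℕ) {c : ℝ} (hc : 0 ≤ c)
    (hc' : c ≤ 1) : ∀ m, 0 ≤ Function.update t j c m ∧ Function.update t j c m ≤ 1 := fun m => by
  by_cases h : m = j
  · subst h; simp [hc, hc']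
  · simpa [h] using ht m

theorem scaled_mem {C : Set X} (hcv : Convex ℝ C) (h0 : (0 : X) ∈ C) {d : ℕ → X}
    (hd : ∀ i, d i ∈ C) {w : ℕ → ℝ} (hw : ∀ i, 0 < w i)
    (hsum : ∀ N, ∑ i ∈ Finset.range N, w i ≤ 1) {N j : ℕ} (hj : j < N) (hwj : w j < 1)
    {t : ℕ → ℝ} (ht : ∀ m, 0 ≤ t m ∧ t m ≤ 1) :
    (1 - w j)⁻¹ • pt d w N (Function.update t j 0) ∈ C := by
  have hu := update_mem_unit ht j le_rfl zero_le_one
  rw [pt, Finset.smul_sum]
  simp only [smul_smul]
  refine comb_mem hcv h0 _ _ _ (fun m _ => mul_nonneg (inv_nonneg.2 (by linarith))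
    (mul_nonneg (hu m).1 (hw m).le)) ?_ fun m _ => hd m
  rw [← Finset.mul_sum, inv_mul_le_iff₀ (by linarith), mul_one]
  have h1 := hsum N
  rw [← Finset.add_sum_erase _ _ (Finset.mem_range.2 hj)] at h1 ⊢
  simp only [Function.update_self, zero_mul, zero_add]
  have h2 : ∑ m ∈ (Finset.range N).erase j, Function.update t j 0 m * w m ≤
      ∑ m ∈ (Finset.range N).erase j, w m :=
    Finset.sum_le_sum fun m _ => mul_le_of_le_one_left (hw m).le (hu m).2
  linarith

namespace Setting

variable (S : Setting X) [CompleteSpace X]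

theorem near_head (p q i N : ℕ) (t : ℕ → ℝ) (ht : ∀ m, 0 ≤ t m ∧ t m ≤ 1) :
    ∃ y ∈ S.head S.aS p q i (S.wS p) (S.vS p),
      ‖pt (S.dir S.aS q) (win p (S.wS p) (S.vS p)) N t - y‖ ≤
        t (2 * i + 3) * S.wS p i + (S.out i).κ p := by
  set d := S.dir S.aS q
  set w := win p (S.wS p) (S.vS p) with hw
  set u : ℕ → ℝ := fun m => if m < N then t m else 0 with hu
  have hu01 : ∀ m, 0 ≤ u m ∧ u m ≤ 1 := fun m => by
    simp only [hu]; split_ifs <;> [exact ht m; exact ⟨le_rfl, zero_le_one⟩]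
  have hnd : ∀ m, ‖d m‖ ≤ 1 := fun m => S.norm_le (S.dir_mem S.aS_mem q m)
  have hwp : ∀ m, 0 < w m := win_pos (S.valid_wS p) (S.valid_vS p)
  have hterm : ∀ m, ‖(u m * w m) • d m‖ ≤ u m * w m := fun m => by
    rw [norm_smul, Real.norm_of_nonneg (mul_nonneg (hu01 m).1 (hwp m).le)]
    exact mul_le_of_le_one_right (mul_nonneg (hu01 m).1 (hwp m).le) (hnd m)
  refine ⟨pt d w (2 * i + 2) u, ⟨fun m => u m, fun m _ => hu01 m, ?_⟩, ?_⟩
  · exact Fin.sum_univ_eq_sum_range (fun m => (u m * w m) • d m) _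
  have hext : pt d w N t = pt d w (2 * i + 4 + N) u := by
    unfold pt
    rw [← Finset.sum_subset (Finset.range_subset_range.2 (by omega : N ≤ 2 * i + 4 + N))
      (fun m _ hm => by simp [hu, Finset.mem_range.not.1 hm])]
    exact Finset.sum_congr rfl fun m hm => by simp [hu, Finset.mem_range.1 hm]
  rw [hext]
  have hsplit : pt d w (2 * i + 4 + N) u - pt d w (2 * i + 2) u =
      (u (2 * i + 2) * w (2 * i + 2)) • d (2 * i + 2) +
        (u (2 * i + 3) * w (2 * i + 3)) • d (2 * i + 3) +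
        ∑ m ∈ Finset.range N, (u (2 * i + 4 + m) * w (2 * i + 4 + m)) • d (2 * i + 4 + m) := by
    unfold pt
    rw [Finset.sum_range_add, Finset.sum_range_succ _ (2 * i + 3), Finset.sum_range_succ _ (2 * i + 2)]
    abel
  rw [hsplit]
  refine (norm_add₃_le).trans ?_
  have hw2 : w (2 * i + 2) = S.vS p i := by simp [hw, win]
  have hw3 : w (2 * i + 3) = S.wS p i := by
    show (if (2 * i + 1) % 2 = 0 then S.vS p ((2 * i + 1) / 2) else S.wS p ((2 * i + 1) / 2)) = _
    rw [if_neg (by omega), show (2 * i + 1) / 2 = i by omega]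
  have hspec := S.outOf_spec (S.st i)
  have hκ : (0 : ℝ) < (S.out i).κ p := hspec.κ_pos p
  have h1 : ‖(u (2 * i + 2) * w (2 * i + 2)) • d (2 * i + 2)‖ ≤ (S.out i).κ p / 4 :=
    (hterm _).trans ((mul_le_of_le_one_left (hwp _).le (hu01 _).2).trans
      (hw2.le.trans (hspec.v_le_κ p)))
  have h2 : ‖(u (2 * i + 3) * w (2 * i + 3)) • d (2 * i + 3)‖ ≤ t (2 * i + 3) * S.wS p i := by
    refine (hterm _).trans ?_
    rw [hw3]
    refine mul_le_mul_of_nonneg_right ?_ (hw3 ▸ (hwp _).le)
    simp only [hu]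
    split_ifs
    · exact le_rfl
    · exact (ht _).1
  have h3 : ‖∑ m ∈ Finset.range N, (u (2 * i + 4 + m) * w (2 * i + 4 + m)) • d (2 * i + 4 + m)‖ ≤
      (S.out i).κ p / 4 := by
    refine (norm_sum_le _ _).trans ((Finset.sum_le_sum fun m _ => ((hterm _).trans
      (mul_le_of_le_one_left (hwp _).le (hu01 _).2)).trans (S.tail_windows p i m)).trans ?_)
    rw [← Finset.mul_sum]
    nlinarith [sum_half_pow_le N]
  linarith

/-- The linear contraction attached to a pair of atoms. -/
theorem exists_D {p q : ℕ} (hpq : p < q) :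
    ∃ D : X →L[ℝ] X, ‖D‖ ≤ 1 ∧ ‖D (S.aS q) - (S.aS q - S.aS p)‖ ≤ 3 * (1 / 2) ^ p ∧
      ∀ i, q < i → ∀ g : StrongDual ℝ X, ‖g‖ ≤ 1 →
        1 - g (S.aS i - S.kstar) ≤ (S.out i).R p →
        1 - g (D (S.aS i - S.kstar)) ≤ (S.out i).R (p + 1) := by
  set d := S.dir S.aS q with hd
  set w := win p (S.wS p) (S.vS p) with hw
  set A := S.Ap p (S.aS p) with hA
  have hAg := S.good_Ap p (S.aS p)
  have hdC : ∀ m, d m ∈ S.C := S.dir_mem S.aS_mem q
  have hwp : ∀ m, 0 < w m := win_pos (S.valid_wS p) (S.valid_vS p)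
  have hws : ∀ N, ∑ m ∈ Finset.range N, w m ≤ 1 := win_sum_le (S.valid_wS p) (S.valid_vS p)
  have hdense : Dense (Submodule.span ℝ (Set.range d) : Set X) := by
    refine S.hspan.mono (Submodule.span_mono ?_)
    rintro _ ⟨j, rfl⟩
    exact ⟨2 * j + 2, by simp [hd, dir]⟩
  obtain ⟨D, hD, hDK⟩ := exists_box_op S.hcv S.h0 (fun x hx => S.norm_le hx) hAg.2.1 hdC hwp hws
    S.hR hdense
  have hε := ep_pos p
  have hεp : ep p = (1 / 2) ^ p / 16 := by unfold ep; ring
  have hmemC : ∀ {N : ℕ} {t : ℕ → ℝ}, (∀ m, 0 ≤ t m ∧ t m ≤ 1) → pt d w N t ∈ S.C :=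
    fun ht => pt_mem S.hcv S.h0 hdC hwp hws _ ht
  refine ⟨D, hD, ?_, fun i hi g hg hgr => ?_⟩
  · have hd0 : d 0 = S.aS q := rfl
    have hw0 : w 0 = 1 - ep p := rfl
    have hball : ‖(1 - ep p) • D (S.aS q) - (S.aS q - S.aS p)‖ ≤
        3 * ep p + 2 * (1 / 2) ^ p := by
      have := hDK 0 (Metric.closedBall (S.aS q - S.aS p) (3 * ep p + 2 * (1 / 2) ^ p))
        Metric.isClosed_closedBall (convex_closedBall _ _) fun N hN t ht => by
          rw [mem_closedBall_iff_norm, pt_update d w hN t 1, one_mul, hd0, hw0]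
          set z := pt d w N (Function.update t 0 0)
          have hu0 := update_mem_unit ht 0 le_rfl zero_le_one
          have hu1 := update_mem_unit ht 0 zero_le_one le_rfl
          have hz : z ∈ S.C := hmemC hu0
          have hz1 : z + (1 - ep p) • S.aS q ∈ S.C := by
            have := hmemC (N := N) hu1
            rwa [pt_update d w hN t 1, one_mul, hd0, hw0] at this
          have hzn : ‖z‖ ≤ ep p := by
            obtain ⟨N, rfl⟩ := Nat.exists_eq_succ_of_ne_zero (by omega : N ≠ 0)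
            refine (norm_sum_le _ _).trans ?_
            rw [Finset.sum_range_succ', Function.update_self]
            simp only [zero_mul, zero_smul, norm_zero, add_zero]
            refine (Finset.sum_le_sum fun m _ => ?_).trans
              (win_tail_le (S.valid_wS p) (S.valid_vS p) N)
            rw [norm_smul, Real.norm_of_nonneg (mul_nonneg (hu0 _).1 (hwp _).le)]
            exact (mul_le_of_le_one_right (mul_nonneg (hu0 _).1 (hwp _).le)
              (S.norm_le (hdC _))).trans (mul_le_of_le_one_left (hwp _).le (hu0 _).2)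
          have h1 : ‖A (z + (1 - ep p) • S.aS q) - A (S.aS q)‖ ≤ 2 * ep p := by
            refine (lip_apply hAg.2.1 hz1 (S.aS_mem q)).trans ?_
            have e : z + (1 - ep p) • S.aS q - S.aS q = z - ep p • S.aS q := by
              rw [sub_smul, one_smul]; abel
            rw [e]
            refine (norm_sub_le _ _).trans ?_
            rw [norm_smul, Real.norm_of_nonneg hε.le]
            nlinarith [S.norm_le (S.aS_mem q)]
          have h2 : ‖A z - A 0‖ ≤ ep p := (lip_apply hAg.2.1 hz S.h0).trans (by simpa using hzn)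
          have h3 := S.aS_fix hpq
          have h4 : ((1 : ℝ) / 2) ^ q ≤ (1 / 2) ^ p :=
            pow_le_pow_of_le_one (by norm_num) (by norm_num) hpq.le
          have h5 := S.Ap_spec p (S.aS_mem p)
          have e : A (z + (1 - ep p) • S.aS q) - A z - (S.aS q - S.aS p) =
              (A (z + (1 - ep p) • S.aS q) - A (S.aS q)) + (A (S.aS q) - S.aS q) -
                (A z - A 0) - (A 0 - S.aS p) := by abel
          rw [e]
          refine (norm_sub_le _ _).trans ?_
          refine le_trans (add_le_add ((norm_sub_le _ _).trans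
            (add_le_add (norm_add_le _ _) le_rfl)) le_rfl) ?_
          linarith
      rw [mem_closedBall_iff_norm, hd0, hw0] at this
      exact this
    have hDa : ‖D (S.aS q)‖ ≤ 1 :=
      ((D.le_of_opNorm_le hD _).trans (by simpa using S.norm_le (S.aS_mem q)))
    have e : D (S.aS q) - (S.aS q - S.aS p) =
        ((1 - ep p) • D (S.aS q) - (S.aS q - S.aS p)) + ep p • D (S.aS q) := by
      rw [sub_smul, one_smul]; abel
    rw [e]
    refine (norm_add_le _ _).trans ?_
    rw [norm_smul, Real.norm_of_nonneg hε.le]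
    have hp0 : (0 : ℝ) < (1 / 2) ^ p := by positivity
    nlinarith
  · obtain ⟨hk, ha⟩ := S.aS_slopes hpq hi g hg hgr
    set R' := (S.out i).R (p + 1)
    set wi := S.wS p i
    have hd3 : d (2 * i + 3) = S.aS i := by
      show (if (2 * i + 1) % 2 = 0 then S.k ((2 * i + 1) / 2)
        else if q < (2 * i + 1) / 2 then S.aS ((2 * i + 1) / 2) else 0) = _
      rw [if_neg (by omega), show (2 * i + 1) / 2 = i by omega, if_pos hi]
    have hw3 : w (2 * i + 3) = wi := by
      show (if (2 * i + 1) % 2 = 0 then S.vS p ((2 * i + 1) / 2) else S.wS p ((2 * i + 1) / 2)) = _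
      rw [if_neg (by omega), show (2 * i + 1) / 2 = i by omega]
    have hwi0 : 0 < wi := (S.valid_wS p i).1
    have hwi1 : wi < 1 := by
      have := (S.valid_wS p i).2
      have h1 : ((1 : ℝ) / 2) ^ i ≤ 1 := pow_le_one₀ (by norm_num) (by norm_num)
      nlinarith [ep_le p]
    have hga : 1 - R' / 2 ≤ g (D (S.aS i)) := by
      have hmem := hDK (2 * i + 3) {v | wi * (1 - R' / 2) ≤ g v}
        (isClosed_le continuous_const g.continuous) (convex_halfSpace_ge g.toLinearMap.isLinear _)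
        fun N hN t ht => by
          rw [pt_update d w hN t 1, one_mul, hd3, hw3]
          set z := pt d w N (Function.update t (2 * i + 3) 0)
          have hu0 := update_mem_unit ht (2 * i + 3) le_rfl zero_le_one
          obtain ⟨y, hy, hyd⟩ := S.near_head p q i N _ hu0
          rw [Function.update_self, zero_mul, zero_add] at hyd
          show wi * (1 - R' / 2) ≤ g (A (z + wi • S.aS i) - A z)
          rw [map_sub]
          refine ha z (hmemC hu0) ?_ ?_ y hy hyd
          · have := scaled_mem S.hcv S.h0 hdC hwp hws hN (by rw [hw3]; exact hwi1) ht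
            rwa [hw3] at this
          · have := hmemC (N := N) (update_mem_unit ht (2 * i + 3) zero_le_one le_rfl)
            rwa [pt_update d w hN t 1, one_mul, hd3, hw3] at this
      rw [hd3, hw3] at hmem
      simp only [Set.mem_ofPred_eq, map_smul, smul_eq_mul] at hmem
      exact le_of_mul_le_mul_left hmem hwi0
    have hgk : |g (D S.kstar)| ≤ R' / 4 := by
      have hmem := hDK 1 {v | |g v| ≤ ep p / 4 * (R' / 4)}
        (isClosed_le g.continuous.abs continuous_const)
        (by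
          have := (convex_closedBall (0 : ℝ) (ep p / 4 * (R' / 4))).linear_preimage g.toLinearMap
          convert this using 1
          ext v
          simp [Real.norm_eq_abs])
        fun N hN t ht => by
          have hb : ∀ c : ℝ, 0 ≤ c → c ≤ 1 →
              |g (A (pt d w N (Function.update t 1 c)))| ≤ ep p / 4 * (R' / 8) := by
            intro c hc hc'
            have hu := update_mem_unit ht 1 hc hc'
            obtain ⟨y, hy, hyd⟩ := S.near_head p q i N _ hu
            exact hk _ (hmemC hu) y hy (hyd.trans (add_le_add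
              (mul_le_of_le_one_left hwi0.le (hu _).2) le_rfl))
          have h1 := hb 1 zero_le_one le_rfl
          have h0 := hb 0 le_rfl zero_le_one
          show |g (A _ - A _)| ≤ _
          rw [map_sub]
          exact (abs_sub _ _).trans (by linarith)
      have hd1 : d 1 = S.kstar := rfl
      have hw1 : w 1 = ep p / 4 := rfl
      rw [hd1, hw1] at hmem
      simp only [Set.mem_ofPred_eq, map_smul, smul_eq_mul, abs_mul,
        abs_of_pos (show (0 : ℝ) < ep p / 4 by positivity)] at hmem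
      exact le_of_mul_le_mul_left hmem (by positivity)
    have hR' : 0 ≤ R' := by linarith [abs_nonneg (g (D S.kstar))]
    rw [map_sub, map_sub]
    linarith [(abs_le.1 hgk).2]

open Classical in
/-- The chosen operator. -/
noncomputable def Dop (p q : ℕ) : X →L[ℝ] X :=
  if h : p < q then (S.exists_D h).choose else 0

theorem Dop_spec {p q : ℕ} (h : p < q) :
    ‖S.Dop p q‖ ≤ 1 ∧ ‖S.Dop p q (S.aS q) - (S.aS q - S.aS p)‖ ≤ 3 * (1 / 2) ^ p ∧
      ∀ i, q < i → ∀ g : StrongDual ℝ X, ‖g‖ ≤ 1 →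
        1 - g (S.aS i - S.kstar) ≤ (S.out i).R p →
        1 - g (S.Dop p q (S.aS i - S.kstar)) ≤ (S.out i).R (p + 1) := by
  rw [Dop, dif_pos h]
  exact (S.exists_D h).choose_spec

/-- Norming functional of an atom. -/
noncomputable def psi (i : ℕ) : StrongDual ℝ X :=
  (exists_dual_vector'' ℝ (S.aS i - S.kstar)).choose

theorem psi_norm (i : ℕ) : ‖S.psi i‖ ≤ 1 :=
  (exists_dual_vector'' ℝ (S.aS i - S.kstar)).choose_spec.1

theorem psi_far (i : ℕ) : 1 - S.psi i (S.aS i - S.kstar) ≤ (S.out i).R 0 := by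
  have h : S.psi i (S.aS i - S.kstar) = ‖S.aS i - S.kstar‖ :=
    (exists_dual_vector'' ℝ (S.aS i - S.kstar)).choose_spec.2
  rw [h]
  linarith [S.aS_far i]

theorem aS_weakly_null (g : StrongDual ℝ X) : Tendsto (fun i => g (S.aS i)) atTop (𝓝 0) := by
  rw [tendsto_iff_ultrafilter]
  intro U' hU'
  obtain ⟨w, hw⟩ := S.hR U' S.aS 1 fun i => S.norm_le (S.aS_mem i)
  have hw0 : w = 0 := S.hG w fun j => by
    have h0 : Tendsto (fun i => S.G j (S.aS i)) atTop (𝓝 0) := by
      refine squeeze_zero_norm' ?_ (tendsto_pow_atTop_nhds_zero_of_lt_one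
        (by norm_num : (0 : ℝ) ≤ 1 / 2) (by norm_num))
      filter_upwards [eventually_ge_atTop j] with i hi
      exact S.aS_small i j hi
    exact tendsto_nhds_unique (hw (S.G j)) (h0.mono_left hU')
  simpa [hw0] using hw g

/-- Reference limit of the norming functionals. -/
noncomputable def lim (j : ℕ) : ℝ :=
  (exists_lim_of_bounded S.U (fun i => S.psi i (S.k j)) 1
    fun i => (dual_le (S.psi_norm i) _).trans (S.norm_le (S.hk j))).choose

theorem lim_spec (j : ℕ) : Tendsto (fun i => S.psi i (S.k j)) (S.U : Filter ℕ) (𝓝 (S.lim j)) :=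
  (exists_lim_of_bounded S.U (fun i => S.psi i (S.k j)) 1
    fun i => (dual_le (S.psi_norm i) _).trans (S.norm_le (S.hk j))).choose_spec

theorem exists_next (n b : ℕ) (P : X →L[ℝ] X) (L : List ℕ) :
    ∃ b', b < b' ∧ (∀ c ∈ L, |S.psi c (P (S.aS b'))| ≤ (1 / 2) ^ n) ∧
      ∀ j ≤ n, |S.psi b' (S.k j) - S.lim j| ≤ (1 / 2) ^ n := by
  classical
  have h1 : ∀ᶠ i in atTop, ∀ c ∈ L.toFinset, |S.psi c (P (S.aS i))| ≤ (1 / 2) ^ n :=
    (eventually_all_finset _).2 fun c _ => by
      have := (S.aS_weakly_null ((S.psi c).comp P)).abs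
      rw [abs_zero] at this
      exact this.eventually (eventually_le_nhds (by positivity))
  have h2 : ∀ᶠ i in (S.U : Filter ℕ), ∀ j ∈ Finset.range (n + 1),
      |S.psi i (S.k j) - S.lim j| ≤ (1 / 2) ^ n :=
    (eventually_all_finset _).2 fun j _ => by
      have := ((S.lim_spec j).sub_const (S.lim j)).abs
      rw [sub_self, abs_zero] at this
      exact this.eventually (eventually_le_nhds (by positivity))
  obtain ⟨i, ⟨hi1, hi2⟩, hi3⟩ :=
    ((((eventually_gt_atTop b).and h1).filter_mono S.hU).and h2).exists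
  exact ⟨i, hi1, fun c hc => hi2 c (List.mem_toFinset.2 hc),
    fun j hj => hi3 j (Finset.mem_range.2 (by omega))⟩

/-- The second selection: last index, operator product, indices used so far. -/
noncomputable def sel : ℕ → ℕ × (X →L[ℝ] X) × List ℕ
  | 0 => (0, ContinuousLinearMap.id ℝ X, [0])
  | n + 1 =>
    let s := sel n
    let b' := (S.exists_next n s.1 s.2.1 s.2.2).choose
    (b', s.2.1.comp (S.Dop s.1 b'), b' :: s.2.2)

/-- The selected indices. -/
noncomputable def bS (n : ℕ) : ℕ := (S.sel n).1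

/-- The operator products. -/
noncomputable def PS (n : ℕ) : X →L[ℝ] X := (S.sel n).2.1

theorem bS_succ (n : ℕ) : S.bS n < S.bS (n + 1) ∧
    (∀ c ∈ (S.sel n).2.2, |S.psi c (S.PS n (S.aS (S.bS (n + 1))))| ≤ (1 / 2) ^ n) ∧
      ∀ j ≤ n, |S.psi (S.bS (n + 1)) (S.k j) - S.lim j| ≤ (1 / 2) ^ n :=
  (S.exists_next n (S.sel n).1 (S.sel n).2.1 (S.sel n).2.2).choose_spec

theorem bS_strictMono : StrictMono S.bS := strictMono_nat_of_lt_succ fun n => (S.bS_succ n).1

theorem PS_succ (n : ℕ) (x : X) :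
    S.PS (n + 1) x = S.PS n (S.Dop (S.bS n) (S.bS (n + 1)) x) := rfl

theorem PS_le : ∀ n (x : X), ‖S.PS n x‖ ≤ ‖x‖ := by
  intro n
  induction n with
  | zero => intro x; exact le_rfl
  | succ n ih =>
    intro x
    rw [S.PS_succ]
    refine (ih _).trans ?_
    simpa using (S.Dop (S.bS n) (S.bS (n + 1))).le_of_opNorm_le
      (S.Dop_spec (S.bS_succ n).1).1 x

theorem mem_list : ∀ n l, l ≤ n → S.bS l ∈ (S.sel n).2.2 := by
  intro n
  induction n with
  | zero =>
    intro l hl
    obtain rfl : l = 0 := Nat.le_zero.1 hl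
    simp [bS, sel]
  | succ n ih =>
    intro l hl
    show S.bS l ∈ S.bS (n + 1) :: (S.sel n).2.2
    rcases Nat.lt_or_eq_of_le hl with h | rfl
    · exact List.mem_cons_of_mem _ (ih l (by omega))
    · exact List.mem_cons_self

/-- The alternating pattern. -/
theorem pattern (L m : ℕ) :
    |S.psi (S.bS (L + 1)) (S.PS (L + 1 + m) (S.aS (S.bS (L + 1 + m)))) - (-1) ^ m| ≤
      5 * (1 / 2) ^ L + 8 * (1 / 2) ^ (L + 1) * (1 - (1 / 2) ^ m) := by
  set i := S.bS (L + 1)
  have hmono := S.bS_strictMono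
  have hge : ∀ n, n ≤ S.bS n := hmono.id_le
  have hcomp : ∀ n, ‖(S.psi i).comp (S.PS n)‖ ≤ 1 := fun n =>
    ContinuousLinearMap.opNorm_le_bound _ zero_le_one fun x => by
      rw [one_mul]
      exact ((dual_le (S.psi_norm i) _).trans (S.PS_le n x))
  have hpull : ∀ n ≤ L, 1 - S.psi i (S.PS n (S.aS i - S.kstar)) ≤ (S.out i).R (S.bS n) := by
    intro n
    induction n with
    | zero => intro _; exact (S.psi_far i).trans (S.R_mono i (Nat.zero_le _))
    | succ n ih =>
      intro hn
      rw [S.PS_succ]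
      exact ((S.Dop_spec (S.bS_succ n).1).2.2 i (hmono (by omega)) _ (hcomp n) (ih (by omega))).trans
        (S.R_mono i (S.bS_succ n).1)
  have herr : ∀ n, ‖S.Dop (S.bS n) (S.bS (n + 1)) (S.aS (S.bS (n + 1))) -
      (S.aS (S.bS (n + 1)) - S.aS (S.bS n))‖ ≤ 3 * (1 / 2) ^ n := fun n =>
    (S.Dop_spec (S.bS_succ n).1).2.1.trans (mul_le_mul_of_nonneg_left
      (pow_le_pow_of_le_one (by norm_num) (by norm_num) (hge n)) (by norm_num))
  have hstep : ∀ n, |S.psi i (S.PS (n + 1) (S.aS (S.bS (n + 1)))) -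
      (S.psi i (S.PS n (S.aS (S.bS (n + 1)))) - S.psi i (S.PS n (S.aS (S.bS n))))| ≤
      3 * (1 / 2) ^ n := by
    intro n
    rw [S.PS_succ, ← map_sub, ← map_sub, ← map_sub, ← map_sub]
    exact ((dual_le (S.psi_norm i) _).trans (S.PS_le n _)).trans (herr n)
  induction m with
  | zero =>
    have hL := hpull L le_rfl
    obtain ⟨h1, h2⟩ := S.aS_top i _ (hcomp L)
      (hL.trans (S.R_mono i (hmono (Nat.lt_succ_self L)).le))
    have h1' : 1 - (1 / 2) ^ i ≤ S.psi i (S.PS L (S.aS i)) := h1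
    have h2' : |S.psi i (S.PS L (S.aS (S.bS L)))| ≤ (1 / 2) ^ i := h2 _ (hmono (Nat.lt_succ_self L))
    have h3 : S.psi i (S.PS L (S.aS i)) ≤ 1 :=
      (le_abs_self _).trans (((dual_le (S.psi_norm i) _).trans (S.PS_le L _)).trans
        (S.norm_le (S.aS_mem i)))
    have h4 : ((1 : ℝ) / 2) ^ i ≤ (1 / 2) ^ L :=
      pow_le_pow_of_le_one (by norm_num) (by norm_num) ((Nat.le_succ L).trans (hge _))
    have h5 := abs_le.1 (hstep L)
    have h6 := abs_le.1 h2'
    rw [add_zero, pow_zero, pow_zero, sub_self, mul_zero, add_zero, abs_le]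
    constructor <;> linarith
  | succ m ih =>
    have h5 := abs_le.1 (hstep (L + 1 + m))
    have h7 := abs_le.1 ((S.bS_succ (L + 1 + m)).2.1 i (S.mem_list _ _ (by omega)))
    have h8 := abs_le.1 ih
    have hp : ((1 : ℝ) / 2) ^ (L + 1 + m) = (1 / 2) ^ (L + 1) * (1 / 2) ^ m := pow_add _ _ _
    have hp' : ((1 : ℝ) / 2) ^ (m + 1) = (1 / 2) ^ m / 2 := by ring
    rw [hp] at h5 h7
    rw [show L + 1 + (m + 1) = L + 1 + m + 1 from rfl, pow_succ (-1 : ℝ), hp', abs_le]
    constructor <;> linarith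

/-- The norming functionals converge pointwise along the selection. -/
theorem cauchy_psi (x : X) : CauchySeq fun n => S.psi (S.bS n) x := by
  have hk : ∀ j, Tendsto (fun n => S.psi (S.bS n) (S.k j)) atTop (𝓝 (S.lim j)) := by
    intro j
    rw [← tendsto_add_atTop_iff_nat 1, tendsto_iff_norm_sub_tendsto_zero]
    refine squeeze_zero' (Eventually.of_forall fun n => norm_nonneg _) ?_
      (tendsto_pow_atTop_nhds_zero_of_lt_one (by norm_num : (0 : ℝ) ≤ 1 / 2) (by norm_num))
    filter_upwards [eventually_ge_atTop j] with n hn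
    exact (S.bS_succ n).2.2 j hn
  have hspan : ∀ y ∈ Submodule.span ℝ (Set.range S.k),
      ∃ c, Tendsto (fun n => S.psi (S.bS n) y) atTop (𝓝 c) := by
    intro y hy
    induction hy using Submodule.span_induction with
    | mem y hy => obtain ⟨j, rfl⟩ := hy; exact ⟨_, hk j⟩
    | zero => exact ⟨0, by simp⟩
    | add u v _ _ hu hv =>
      obtain ⟨a, ha⟩ := hu; obtain ⟨b, hb⟩ := hv
      exact ⟨a + b, by simpa using ha.add hb⟩
    | smul r u _ hu =>
      obtain ⟨a, ha⟩ := hu
      exact ⟨r * a, by simpa using ha.const_mul r⟩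
  rw [Metric.cauchySeq_iff]
  intro ε hε
  obtain ⟨y, hy, hxy⟩ := Metric.mem_closure_iff.1 (S.hspan x) (ε / 4) (by linarith)
  obtain ⟨c, hc⟩ := hspan y hy
  obtain ⟨N, hN⟩ := Metric.cauchySeq_iff.1 hc.cauchySeq (ε / 4) (by linarith)
  refine ⟨N, fun m hm n hn => ?_⟩
  rw [dist_eq_norm] at hxy
  have h1 := hN m hm n hn
  rw [Real.dist_eq] at h1 ⊢
  have h2 := abs_le.1 ((dual_le (S.psi_norm (S.bS m)) (x - y)).trans hxy.le)
  have h3 := abs_le.1 ((dual_le (S.psi_norm (S.bS n)) (x - y)).trans hxy.le)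
  rw [map_sub] at h2 h3
  have h4 := abs_lt.1 h1
  rw [abs_lt]
  constructor <;> linarith

theorem contradiction (S : Setting X) : False := by
  obtain ⟨V, hV⟩ := S.hR S.U (fun n => S.PS (2 * n) (S.aS (S.bS (2 * n)))) 1
    fun n => (S.PS_le _ _).trans (S.norm_le (S.aS_mem _))
  have hval : ∀ L, |S.psi (S.bS (L + 1)) V - (-1) ^ (L + 1)| ≤ 9 * (1 / 2) ^ L := by
    intro L
    refine le_of_tendsto ((hV _).sub_const _).abs (Eventually.filter_mono S.hU ?_)
    filter_upwards [eventually_ge_atTop (L + 1)] with n hn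
    have h := S.pattern L (2 * n - (L + 1))
    rw [show L + 1 + (2 * n - (L + 1)) = 2 * n by omega] at h
    have hsign : (-1 : ℝ) ^ (2 * n - (L + 1)) = (-1) ^ (L + 1) := by
      rw [neg_one_pow_eq_pow_mod_two, neg_one_pow_eq_pow_mod_two (n := L + 1)]
      congr 1
      omega
    rw [hsign] at h
    refine h.trans ?_
    have h0 : (0 : ℝ) ≤ (1 / 2) ^ (2 * n - (L + 1)) := by positivity
    have h1 : ((1 : ℝ) / 2) ^ (L + 1) = (1 / 2) ^ L / 2 := by ring
    nlinarith [pow_nonneg (by norm_num : (0:ℝ) ≤ 1 / 2) L]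
  obtain ⟨c, hc⟩ := cauchySeq_tendsto_of_complete (S.cauchy_psi V)
  have h1 := hc.comp (tendsto_add_atTop_nat 1)
  have h2 := hc.comp (tendsto_add_atTop_nat 2)
  have h3 : Tendsto (fun L : ℕ => |S.psi (S.bS (L + 1)) V - S.psi (S.bS (L + 2)) V|
      + 9 * (1 / 2 : ℝ) ^ L + 9 * (1 / 2) ^ (L + 1)) atTop (𝓝 0) := by
    have hp : Tendsto (fun L : ℕ => (1 / 2 : ℝ) ^ L) atTop (𝓝 0) :=
      tendsto_pow_atTop_nhds_zero_of_lt_one (by norm_num) (by norm_num)
    simpa using ((h1.sub h2).abs.add (hp.const_mul 9)).add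
      ((hp.comp (tendsto_add_atTop_nat 1)).const_mul 9)
  have h4 : (2 : ℝ) ≤ 0 := by
    refine ge_of_tendsto h3 (Eventually.of_forall fun L => ?_)
    have a := abs_le.1 (hval L)
    have b := abs_le.1 (hval (L + 1))
    have d := le_abs_self (S.psi (S.bS (L + 1)) V - S.psi (S.bS (L + 2)) V)
    have d' := neg_le_abs (S.psi (S.bS (L + 1)) V - S.psi (S.bS (L + 2)) V)
    rw [pow_succ (-1 : ℝ) (L + 1)] at b
    rcases neg_one_pow_eq_or ℝ (L + 1) with e | e <;> rw [e] at a b <;> linarith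
  linarith

end Setting

end Vale.Agent.P079
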