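import Vale.Agent.P079.Core

/-!
Reduction of an arbitrary fixed point free nonexpansive map to a normalised setting.
-/

namespace Vale.Agent.P079

open Filter Topology Set Pointwise

/-- Scaling and translation: a fixed point free map on a minimal set of positive diameter yields
one on a minimal set of diameter one with a weakly null approximate fixed point sequence, and then
a `Setting` on the closed span. -/
theorem false_of_normalised {X : Type*} [NormedAddCommGroup X] [NormedSpace ℝ X] [CompleteSpace X]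
    (hX : Function.Surjective (NormedSpace.inclusionInDoubleDual ℝ X))
    {C : Set X} (hcl : IsClosed C) (hcv : Convex ℝ C) (h0 : (0 : X) ∈ C)
    (hd : ∀ x ∈ C, ∀ y ∈ C, ‖x - y‖ ≤ 1)
    (hd' : ∀ ρ < (1 : ℝ), ∃ x ∈ C, ∃ y ∈ C, ρ < ‖x - y‖)
    {T : X → X} (hmaps : MapsTo T C C) (hT : LipschitzOnWith 1 T C)
    (hmin : ∀ E ⊆ C, E.Nonempty → IsClosed E → Convex ℝ E → MapsTo T E E → C ⊆ E)
    {f : ℕ → X} (hf : ∀ n, f n ∈ C) (hfT : Tendsto (fun n => ‖T (f n) - f n‖) atTop (𝓝 0))
    {U : Ultrafilter ℕ} (hU : (U : Filter ℕ) ≤ atTop)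
    (hfw : ∀ g : StrongDual ℝ X, Tendsto (fun n => g (f n)) (U : Filter ℕ) (𝓝 0)) : False := by
  classical
  have hR : ∀ (U : Ultrafilter ℕ) (x : ℕ → X) (M : ℝ), (∀ i, ‖x i‖ ≤ M) →
      ∃ w, ∀ g : StrongDual ℝ X, Tendsto (fun i => g (x i)) (U : Filter ℕ) (𝓝 (g w)) :=
    fun U x M h => exists_weakLim_of_surjective hX U x M h
  -- a countable dense subset of the minimal set
  let cc : ℝ → ℝ := fun t => max 0 (min 1 t)
  let comb : X × X → ℚ → X := fun p r => (1 - cc r) • p.1 + cc r • p.2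
  let Q : ℕ → Set X := fun n => Nat.rec ({0} : Set X)
    (fun _ S => S ∪ T '' S ∪ Set.image2 comb (S ×ˢ S) Set.univ) n
  have hcc : ∀ t, 0 ≤ cc t ∧ cc t ≤ 1 := fun t => ⟨le_max_left _ _, max_le zero_le_one (min_le_left _ _)⟩
  have hQC : ∀ n, Q n ⊆ C := by
    intro n
    induction n with
    | zero => simpa [Q] using h0
    | succ n ih =>
      rintro x ((hx | ⟨y, hy, rfl⟩) | ⟨p, hp, r, -, rfl⟩)
      · exact ih hx
      · exact hmaps (ih hy)
      · exact hcv (ih hp.1) (ih hp.2) (by linarith [(hcc r).2]) (hcc r).1 (by ring)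
  have hQc : ∀ n, (Q n).Countable := by
    intro n
    induction n with
    | zero => exact Set.countable_singleton _
    | succ n ih => exact (ih.union (ih.image T)).union ((ih.prod ih).image2 Set.countable_univ comb)
  have hQmono : Monotone Q := monotone_nat_of_le_succ fun n x hx => Or.inl (Or.inl hx)
  set Qi : Set X := ⋃ n, Q n with hQi
  have hQiC : Qi ⊆ C := iUnion_subset hQC
  have hE : C ⊆ closure Qi := by
    have hsub : closure Qi ⊆ C := closure_minimal hQiC hcl
    refine hmin _ hsub ⟨0, subset_closure (mem_iUnion.2 ⟨0, rfl⟩)⟩ isClosed_closure ?_ ?_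
    · intro x hx y hy a b ha hb hab
      have hb1 : b ≤ 1 := by linarith
      have hbmem : b ∈ closure (Set.range ((↑) : ℚ → ℝ)) := Rat.denseRange_cast b
      have hg : Continuous fun z : (X × X) × ℝ => (1 - cc z.2) • z.1.1 + cc z.2 • z.1.2 := by
        simp only [cc]
        fun_prop
      have := map_mem_closure (f := fun z : (X × X) × ℝ => (1 - cc z.2) • z.1.1 + cc z.2 • z.1.2)
        (t := Qi) hg
        (show ((x, y), b) ∈ closure ((Qi ×ˢ Qi) ×ˢ Set.range ((↑) : ℚ → ℝ)) by
          rw [closure_prod_eq, closure_prod_eq]; exact ⟨⟨hx, hy⟩, hbmem⟩)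
        (by
          rintro ⟨⟨u, v⟩, t⟩ ⟨⟨hu, hv⟩, r, rfl⟩
          obtain ⟨m, hm⟩ := mem_iUnion.1 hu
          obtain ⟨m', hm'⟩ := mem_iUnion.1 hv
          exact mem_iUnion.2 ⟨max m m' + 1, Or.inr ⟨(u, v),
            ⟨hQmono (le_max_left _ _) hm, hQmono (le_max_right _ _) hm'⟩, r, Set.mem_univ _, rfl⟩⟩)
      have hccb : cc b = b := by simp [cc, hb, hb1]
      simp only [hccb] at this
      rwa [show 1 - b = a by linarith] at this
    · exact MapsTo.closure_of_continuousOn (fun x hx => by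
        obtain ⟨m, hm⟩ := mem_iUnion.1 hx
        exact mem_iUnion.2 ⟨m + 1, Or.inl (Or.inr ⟨x, hm, rfl⟩)⟩) (hT.continuousOn.mono hsub)
  obtain ⟨e, he⟩ := (Set.countable_iUnion hQc).exists_eq_range ⟨0, mem_iUnion.2 ⟨0, rfl⟩⟩
  let k : ℕ → X := fun n => Nat.rec 0 (fun m _ => e m) n
  have hkC : ∀ n, k n ∈ C := by
    rintro (_ | m)
    · exact h0
    · exact hQiC (by rw [hQi, he]; exact Set.mem_range_self m)
  have hkd : C ⊆ closure (Set.range k) := hE.trans (closure_mono (by
    rw [hQi, he]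
    rintro _ ⟨m, rfl⟩
    exact ⟨m + 1, rfl⟩))
  -- pass to the closed span
  let Y : Submodule ℝ X := (Submodule.span ℝ (Set.range k)).topologicalClosure
  have hYcl : IsClosed (Y : Set X) := Submodule.isClosed_topologicalClosure _
  haveI : CompleteSpace Y := hYcl.completeSpace_coe
  have hCY : C ⊆ (Y : Set X) := hkd.trans (by
    rw [Submodule.topologicalClosure_coe]
    exact closure_mono Submodule.subset_span)
  have hRY : ∀ (U : Ultrafilter ℕ) (x : ℕ → Y) (M : ℝ), (∀ i, ‖x i‖ ≤ M) →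
      ∃ w, ∀ g : StrongDual ℝ Y, Tendsto (fun i => g (x i)) (U : Filter ℕ) (𝓝 (g w)) := by
    intro U x M hM
    obtain ⟨w, hw⟩ := hR U (fun i => (x i : X)) M hM
    have hwY : w ∈ Y := mem_of_weakLim hw Y.convex hYcl (Eventually.of_forall fun i => (x i).2)
    refine ⟨⟨w, hwY⟩, fun g => ?_⟩
    obtain ⟨g', hg', -⟩ := exists_extension_norm_eq Y g
    simpa [← hg'] using hw g'
  let T' : Y → Y := fun y => if h : T y ∈ Y then ⟨T y, h⟩ else 0
  let C' : Set Y := Subtype.val ⁻¹' C
  have hT' : ∀ y ∈ C', (T' y : X) = T y := fun y hy => by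
    have h : T (y : X) ∈ Y := hCY (hmaps hy)
    simp only [T']
    rw [dif_pos h]
  let k' : ℕ → Y := fun n => ⟨k n, hCY (hkC n)⟩
  have hspan : Dense (Submodule.span ℝ (Set.range k') : Set Y) := by
    intro y
    rw [closure_subtype]
    have himg : Subtype.val '' (Submodule.span ℝ (Set.range k') : Set Y) =
        (Submodule.span ℝ (Set.range k) : Set X) := by
      rw [← Submodule.coe_subtype, ← Submodule.map_coe, Submodule.map_span, ← Set.range_comp]
      rfl
    rw [himg, ← Submodule.topologicalClosure_coe]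
    exact y.2
  have hsep : TopologicalSpace.SeparableSpace Y := by
    have h1 := ((Set.countable_range k').isSeparable).span (R := ℝ)
    rw [← TopologicalSpace.isSeparable_univ_iff, ← hspan.closure_eq]
    exact h1.closure
  obtain ⟨y, hy⟩ := TopologicalSpace.exists_dense_seq Y
  choose G hG1 hG2 using fun j => exists_dual_vector'' ℝ (y j)
  let f' : ℕ → Y := fun n => ⟨f n, hCY (hf n)⟩
  refine Setting.contradiction (X := Y)
    { hR := hRY
      C := C'
      T := T'
      hcl := hcl.preimage continuous_subtype_val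
      hcv := hcv.linear_preimage Y.subtype
      h0 := h0
      hd := fun a ha b hb => hd _ ha _ hb
      hmaps := fun a ha => by
        show (T' a : X) ∈ C
        rw [hT' a ha]; exact hmaps ha
      hT := LipschitzOnWith.of_dist_le_mul fun a ha b hb => by
        rw [Subtype.dist_eq, Subtype.dist_eq, hT' a ha, hT' b hb]
        exact hT.dist_le_mul _ ha _ hb
      hmin := fun E hE hne hcE hvE hmE => by
        have hmin' := hmin (Subtype.val '' E) (image_subset_iff.2 hE) (hne.image _)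
          (hYcl.isClosedEmbedding_subtypeVal.isClosedMap _ hcE) (hvE.linear_image Y.subtype)
          (by
            rintro _ ⟨a, ha, rfl⟩
            exact ⟨T' a, hmE ha, hT' a (hE ha)⟩)
        intro a ha
        obtain ⟨b, hb, hba⟩ := hmin' ha
        rwa [← Subtype.ext hba]
      k := k'
      hk := hkC
      hk0 := rfl
      hkdense := fun a ha ε hε => by
        obtain ⟨z, ⟨j, rfl⟩, hj⟩ := Metric.mem_closure_iff.1 (hkd ha) ε hε
        exact ⟨j, by rwa [dist_eq_norm] at hj⟩
      hspan := hspan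
      G := G
      hG := fun v hv => by
        refine norm_le_zero_iff.1 (le_of_forall_pos_le_add fun ε hε => ?_)
        obtain ⟨j, hj⟩ := hy.exists_dist_lt v (show (0 : ℝ) < ε / 2 by linarith)
        rw [dist_eq_norm] at hj
        have h2 : ‖y j‖ = G j (y j - v) := by rw [map_sub, hv j, sub_zero, hG2 j]; rfl
        have h3 := (le_abs_self (G j (y j - v))).trans (Setting.dual_le (hG1 j) _)
        have h4 := norm_le_norm_add_norm_sub' v (y j)
        rw [norm_sub_rev (y j) v] at h3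
        linarith
      f := f'
      hf := hf
      hfT := hfT.congr fun n => by
        show ‖T (f n) - f n‖ = ‖(T' (f' n) : X) - f n‖
        rw [hT' _ (hf n)]
      hfar := fun a ha ε hε => goebel_karlovitz hR hcl hcv hd hd' hmaps hT hmin hf hfT ha hε
      U := U
      hU := hU
      hfw := fun g => by
        obtain ⟨g', hg', -⟩ := exists_extension_norm_eq Y g
        have := hfw g'
        convert this using 2 with n
        exact (hg' (f' n)).symm }

/-- Every reflexive space has the fixed point property. -/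
theorem exists_fixed_point {X : Type*} [NormedAddCommGroup X] [NormedSpace ℝ X] [CompleteSpace X]
    (hX : Function.Surjective (NormedSpace.inclusionInDoubleDual ℝ X))
    {C : Set X} (hne : C.Nonempty) (hcl : IsClosed C) (hbd : Bornology.IsBounded C)
    (hcv : Convex ℝ C) {T : X → X} (hmaps : MapsTo T C C) (hT : LipschitzOnWith 1 T C) :
    ∃ x ∈ C, T x = x := by
  by_contra hno
  simp only [not_exists, not_and] at hno
  obtain ⟨K, hKC, hKne, hKcl, hKcv, hKmaps, hKmin⟩ :=
    exists_minimal_invariant hX hne hcl hcv hbd hmaps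
  have hKbd : Bornology.IsBounded K := hbd.subset hKC
  set δ : ℝ := Metric.diam K with hδ
  have hδ0 : 0 < δ := by
    obtain ⟨x, hx⟩ := hKne
    exact lt_of_lt_of_le (norm_pos_iff.2 (sub_ne_zero.2 (hno x (hKC hx))))
      (by rw [← dist_eq_norm]; exact Metric.dist_le_diam_of_mem hKbd (hKmaps hx) hx)
  have hpair : ∀ ρ < (1 : ℝ), ∃ x ∈ K, ∃ y ∈ K, ρ * δ < ‖x - y‖ := by
    intro ρ hρ
    by_contra hc
    simp only [not_exists, not_and, not_lt] at hc
    have h0 : 0 ≤ max ρ 0 * δ := by positivity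
    have : δ ≤ max ρ 0 * δ := Metric.diam_le_of_forall_dist_le h0 fun x hx y hy => by
      rw [dist_eq_norm]
      exact (hc x hx y hy).trans (mul_le_mul_of_nonneg_right (le_max_left _ _) hδ0.le)
    have h1 : max ρ 0 < 1 := max_lt hρ one_pos
    nlinarith
  -- scale
  set C₁ : Set X := (fun y => δ • y) ⁻¹' K with hC₁
  set T₁ : X → X := fun y => δ⁻¹ • T (δ • y) with hT₁
  have hsc : ∀ v : X, δ • δ⁻¹ • v = v := fun v => smul_inv_smul₀ hδ0.ne' v
  have hsc' : ∀ v : X, δ⁻¹ • δ • v = v := fun v => inv_smul_smul₀ hδ0.ne' v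
  have hcl₁ : IsClosed C₁ := hKcl.preimage (continuous_const_smul δ)
  have hcv₁ : Convex ℝ C₁ := hKcv.linear_preimage (δ • LinearMap.id)
  have hd₁ : ∀ x ∈ C₁, ∀ y ∈ C₁, ‖x - y‖ ≤ 1 := by
    intro x hx y hy
    have := Metric.dist_le_diam_of_mem hKbd hx hy
    rw [dist_eq_norm, ← smul_sub, norm_smul, Real.norm_of_nonneg hδ0.le] at this
    exact le_of_mul_le_mul_left (by simpa using this) hδ0
  have hmaps₁ : MapsTo T₁ C₁ C₁ := fun y hy => by
    show δ • δ⁻¹ • T (δ • y) ∈ K
    rw [hsc]; exact hKmaps hy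
  have hlip₁ : ∀ x ∈ C₁, ∀ y ∈ C₁, ‖T₁ x - T₁ y‖ ≤ ‖x - y‖ := by
    intro x hx y hy
    show ‖δ⁻¹ • T (δ • x) - δ⁻¹ • T (δ • y)‖ ≤ _
    rw [← smul_sub, norm_smul, Real.norm_of_nonneg (inv_nonneg.2 hδ0.le)]
    calc δ⁻¹ * ‖T (δ • x) - T (δ • y)‖ ≤ δ⁻¹ * ‖δ • x - δ • y‖ :=
          mul_le_mul_of_nonneg_left (lip_apply hT (hKC hx) (hKC hy)) (inv_nonneg.2 hδ0.le)
      _ = ‖x - y‖ := by
          rw [← smul_sub, norm_smul, Real.norm_of_nonneg hδ0.le, ← mul_assoc,
            inv_mul_cancel₀ hδ0.ne', one_mul]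
  have hT₁' : LipschitzOnWith 1 T₁ C₁ := LipschitzOnWith.of_dist_le_mul fun x hx y hy => by
    simpa [dist_eq_norm] using hlip₁ x hx y hy
  obtain ⟨x₀, hx₀⟩ := hKne
  have hne₁ : C₁.Nonempty := ⟨δ⁻¹ • x₀, by show δ • δ⁻¹ • x₀ ∈ K; rwa [hsc]⟩
  obtain ⟨f, hf, hfT⟩ := exists_afps hne₁ hcl₁ hcv₁ hd₁ hmaps₁ hT₁'
  obtain ⟨w₀, hw₀⟩ := hne₁
  set U : Ultrafilter ℕ := Ultrafilter.of atTop
  have hU : (U : Filter ℕ) ≤ atTop := Ultrafilter.of_le _
  obtain ⟨z, hz⟩ := exists_weakLim_of_surjective hX U f (‖w₀‖ + 1) fun n => by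
    linarith [norm_le_insert' (f n) w₀, hd₁ _ (hf n) _ hw₀]
  have hzC : z ∈ C₁ := mem_of_weakLim hz hcv₁ hcl₁ (Eventually.of_forall hf)
  -- translate
  refine false_of_normalised hX (C := (fun y => y + z) ⁻¹' C₁) (T := fun y => T₁ (y + z) - z)
    (hcl₁.preimage (continuous_add_const z)) (hcv₁.translate_preimage_left z) (by simpa using hzC)
    ?_ ?_ ?_ ?_ ?_ (f := fun n => f n - z) (fun n => by simpa using hf n) ?_ hU ?_
  · intro x hx y hy
    simpa using hd₁ _ hx _ hy
  · intro ρ hρ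
    obtain ⟨x, hx, y, hy, hxy⟩ := hpair ρ hρ
    refine ⟨δ⁻¹ • x - z, by simpa [hC₁, hsc] using hx, δ⁻¹ • y - z, by simpa [hC₁, hsc] using hy, ?_⟩
    rw [show δ⁻¹ • x - z - (δ⁻¹ • y - z) = δ⁻¹ • (x - y) by rw [smul_sub]; abel, norm_smul,
      Real.norm_of_nonneg (inv_nonneg.2 hδ0.le), ← div_eq_inv_mul, lt_div_iff₀ hδ0]
    exact hxy
  · intro x hx
    show T₁ (x + z) - z + z ∈ C₁
    rw [sub_add_cancel]; exact hmaps₁ hx
  · refine LipschitzOnWith.of_dist_le_mul fun x hx y hy => ?_
    simpa [dist_eq_norm] using hlip₁ _ hx _ hy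
  · intro E hE hne hcE hvE hmE
    have hsub : (fun y : X => δ • (y + z)) '' E ⊆ K := image_subset_iff.2 fun y hy => hE hy
    have := hKmin _ hsub (hne.image _) ?_ ?_ ?_
    · intro x hx
      obtain ⟨y, hy, hxy⟩ := this (show δ • (x + z) ∈ K from hx)
      have hyx : y + z = x + z := smul_right_injective X hδ0.ne' hxy
      rwa [← add_right_cancel hyx]
    · exact ((Homeomorph.addRight z).trans (Homeomorph.smulOfNeZero δ hδ0.ne')).isClosedMap _ hcE
    · have : (fun y : X => δ • (y + z)) '' E = δ • ((fun y => y + z) '' E) := by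
        rw [← Set.image_smul, Set.image_image]
      rw [this]
      have hc : Convex ℝ ((fun y => y + z) '' E) := by simpa [add_comm] using hvE.translate z
      exact hc.smul δ
    · rintro _ ⟨y, hy, rfl⟩
      refine ⟨T₁ (y + z) - z, hmE hy, ?_⟩
      show δ • (T₁ (y + z) - z + z) = T (δ • (y + z))
      rw [sub_add_cancel, hT₁, hsc]
  · simpa using hfT
  · intro g
    simpa using (hz g).sub_const (g z)

end Vale.Agent.P079
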