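import Vale.Agent.P079.BoxOp

/-!
The normalised setting of a minimal invariant set, and nonexpansive maps fixing approximate
fixed points.
-/

namespace Vale.Agent.P079

open Filter Topology Set

/-- The normalised situation: a separable reflexive space, a minimal invariant set of diameter one
containing `0`, and a weakly null approximate fixed point sequence. -/
structure Setting (X : Type*) [NormedAddCommGroup X] [NormedSpace ℝ X] where
  hR : ∀ (U : Ultrafilter ℕ) (x : ℕ → X) (M : ℝ), (∀ i, ‖x i‖ ≤ M) →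
    ∃ w, ∀ g : StrongDual ℝ X, Tendsto (fun i => g (x i)) (U : Filter ℕ) (𝓝 (g w))
  C : Set X
  T : X → X
  hcl : IsClosed C
  hcv : Convex ℝ C
  h0 : (0 : X) ∈ C
  hd : ∀ x ∈ C, ∀ y ∈ C, ‖x - y‖ ≤ 1
  hmaps : MapsTo T C C
  hT : LipschitzOnWith 1 T C
  hmin : ∀ E ⊆ C, E.Nonempty → IsClosed E → Convex ℝ E → MapsTo T E E → C ⊆ E
  k : ℕ → X
  hk : ∀ j, k j ∈ C
  hk0 : k 0 = 0
  hkdense : ∀ y ∈ C, ∀ ε > 0, ∃ j, ‖y - k j‖ < ε
  hspan : Dense (Submodule.span ℝ (Set.range k) : Set X)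
  G : ℕ → StrongDual ℝ X
  hG : ∀ x, (∀ j, G j x = 0) → x = 0
  f : ℕ → X
  hf : ∀ n, f n ∈ C
  hfT : Tendsto (fun n => ‖T (f n) - f n‖) atTop (𝓝 0)
  hfar : ∀ y ∈ C, ∀ ε > 0, ∀ᶠ n in atTop, 1 - ε ≤ ‖f n - y‖
  U : Ultrafilter ℕ
  hU : (U : Filter ℕ) ≤ atTop
  hfw : ∀ g : StrongDual ℝ X, Tendsto (fun n => g (f n)) (U : Filter ℕ) (𝓝 0)

namespace Setting

variable {X : Type*} [NormedAddCommGroup X] [NormedSpace ℝ X] (S : Setting X)

theorem norm_le {x : X} (hx : x ∈ S.C) : ‖x‖ ≤ 1 := by simpa using S.hd x hx 0 S.h0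

/-- Nonexpansive self-maps of `C` that almost fix almost fixed points. -/
def Good (A : X → X) : Prop :=
  MapsTo A S.C S.C ∧ LipschitzOnWith 1 A S.C ∧
    ∃ M, 0 ≤ M ∧ ∀ x ∈ S.C, ‖A x - x‖ ≤ M * ‖S.T x - x‖

theorem good_id : S.Good id :=
  ⟨fun x hx => hx, LipschitzWith.id.lipschitzOnWith, 0, le_rfl, fun x _ => by simp⟩

theorem good_comp {A : X → X} (hA : S.Good A) : S.Good (S.T ∘ A) := by
  obtain ⟨hm, hl, M, hM, hb⟩ := hA
  refine ⟨S.hmaps.comp hm, by simpa using S.hT.comp hl hm, M + 1, by linarith, fun x hx => ?_⟩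
  calc ‖S.T (A x) - x‖ ≤ ‖S.T (A x) - S.T x‖ + ‖S.T x - x‖ := norm_sub_le_norm_sub_add_norm_sub _ _ _
    _ ≤ ‖A x - x‖ + ‖S.T x - x‖ := by gcongr; exact lip_apply S.hT (hm hx) hx
    _ ≤ (M + 1) * ‖S.T x - x‖ := by linarith [hb x hx]

theorem good_combo {A B : X → X} (hA : S.Good A) (hB : S.Good B) {a b : ℝ} (ha : 0 ≤ a)
    (hb : 0 ≤ b) (hab : a + b = 1) : S.Good (fun x => a • A x + b • B x) := by
  obtain ⟨hm, hl, M, hM, hMb⟩ := hA
  obtain ⟨hm', hl', M', hM', hMb'⟩ := hB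
  refine ⟨fun x hx => S.hcv (hm hx) (hm' hx) ha hb hab,
    LipschitzOnWith.of_dist_le_mul fun x hx y hy => ?_, a * M + b * M', by positivity,
    fun x hx => ?_⟩
  · simp only [dist_eq_norm, NNReal.coe_one, one_mul]
    have e : a • A x + b • B x - (a • A y + b • B y) = a • (A x - A y) + b • (B x - B y) := by
      rw [smul_sub, smul_sub]; abel
    rw [e]
    refine (norm_add_le _ _).trans ?_
    rw [norm_smul, norm_smul, Real.norm_of_nonneg ha, Real.norm_of_nonneg hb]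
    calc a * ‖A x - A y‖ + b * ‖B x - B y‖ ≤ a * ‖x - y‖ + b * ‖x - y‖ :=
          add_le_add (mul_le_mul_of_nonneg_left (lip_apply hl hx hy) ha)
            (mul_le_mul_of_nonneg_left (lip_apply hl' hx hy) hb)
      _ = ‖x - y‖ := by rw [← add_mul, hab, one_mul]
  · have e : a • A x + b • B x - x = a • (A x - x) + b • (B x - x) := by
      rw [smul_sub, smul_sub, sub_add_sub_comm, ← add_smul, hab, one_smul]
    rw [e]
    refine (norm_add_le _ _).trans ?_
    rw [norm_smul, norm_smul, Real.norm_of_nonneg ha, Real.norm_of_nonneg hb]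
    nlinarith [mul_le_mul_of_nonneg_left (hMb x hx) ha, mul_le_mul_of_nonneg_left (hMb' x hx) hb]

/-- By minimality the good maps send `0` to a dense subset of `C`. -/
theorem exists_good {y : X} (hy : y ∈ S.C) {ε : ℝ} (hε : 0 < ε) :
    ∃ A, S.Good A ∧ ‖A 0 - y‖ ≤ ε := by
  set K : Set X := {z | ∃ A, S.Good A ∧ A 0 = z}
  have hKC : K ⊆ S.C := by rintro z ⟨A, hA, rfl⟩; exact hA.1 S.h0
  have hsub : closure K ⊆ S.C := closure_minimal hKC S.hcl
  have hKcv : Convex ℝ K := by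
    rintro _ ⟨A, hA, rfl⟩ _ ⟨B, hB, rfl⟩ a b ha hb hab
    exact ⟨_, S.good_combo hA hB ha hb hab, rfl⟩
  have hmap : MapsTo S.T (closure K) (closure K) := by
    intro z hz
    obtain ⟨u, hu, hlim⟩ := mem_closure_iff_seq_limit.1 hz
    refine mem_closure_iff_seq_limit.2 ⟨fun n => S.T (u n), fun n => ?_, ?_⟩
    · obtain ⟨A, hA, hA0⟩ := hu n
      exact ⟨_, S.good_comp hA, by simp [hA0]⟩
    · exact (S.hT.continuousOn z (hsub hz)).tendsto.comp
        (tendsto_nhdsWithin_iff.2 ⟨hlim, Eventually.of_forall fun n => hKC (hu n)⟩)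
  have := S.hmin _ hsub ⟨0, subset_closure ⟨id, S.good_id, rfl⟩⟩ isClosed_closure hKcv.closure hmap hy
  obtain ⟨z, ⟨A, hA, rfl⟩, hz⟩ := Metric.mem_closure_iff.1 this ε hε
  rw [dist_comm, dist_eq_norm] at hz
  exact ⟨A, hA, hz.le⟩

theorem eventually_fix {A : X → X} (hA : S.Good A) {ε : ℝ} (hε : 0 < ε) :
    ∀ᶠ n in atTop, ‖A (S.f n) - S.f n‖ ≤ ε := by
  obtain ⟨-, -, M, hM, hb⟩ := hA
  have h : Tendsto (fun n => M * ‖S.T (S.f n) - S.f n‖) atTop (𝓝 0) := by
    simpa using S.hfT.const_mul M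
  filter_upwards [h.eventually (eventually_le_nhds hε)] with n hn
  exact (hb _ (S.hf n)).trans hn

open Classical in
/-- A good map sending `0` close to `y`. -/
noncomputable def Ap (p : ℕ) (y : X) : X → X :=
  if h : y ∈ S.C then (S.exists_good h (show (0 : ℝ) < (1 / 2) ^ p by positivity)).choose else id

theorem good_Ap (p : ℕ) (y : X) : S.Good (S.Ap p y) := by
  unfold Ap
  split
  · exact (Exists.choose_spec (S.exists_good (by assumption) (by positivity))).1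
  · exact S.good_id

theorem Ap_spec (p : ℕ) {y : X} (hy : y ∈ S.C) : ‖S.Ap p y 0 - y‖ ≤ (1 / 2) ^ p := by
  rw [Ap, dif_pos hy]
  exact (Exists.choose_spec (S.exists_good hy (by positivity))).2

/-- The quasi-interior point. -/
noncomputable def kstar : X := ∑' j, ((1 : ℝ) / 2) ^ (j + 1) • S.k j

theorem hasSum_weights : HasSum (fun j : ℕ => ((1 : ℝ) / 2) ^ (j + 1)) 1 := by
  have h := (hasSum_geometric_two).mul_left ((1 : ℝ) / 2)
  simpa [pow_succ, mul_comm] using h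

variable [CompleteSpace X]

theorem hasSum_kstar : HasSum (fun j => ((1 : ℝ) / 2) ^ (j + 1) • S.k j) S.kstar :=
  (Summable.of_norm_bounded (hasSum_weights).summable fun j => by
    rw [norm_smul, Real.norm_of_nonneg (by positivity)]
    exact mul_le_of_le_one_right (by positivity) (S.norm_le (S.hk j))).hasSum

theorem kstar_mem : S.kstar ∈ S.C :=
  S.hcl.mem_of_tendsto S.hasSum_kstar.tendsto_sum_nat (Eventually.of_forall fun n =>
    comb_mem S.hcv S.h0 _ _ _ (fun j _ => by positivity)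
      (sum_le_hasSum _ (fun j _ => by positivity) hasSum_weights) fun j _ => S.hk j)

theorem hasSum_dual (g : StrongDual ℝ X) (a : X) :
    HasSum (fun j => ((1 : ℝ) / 2) ^ (j + 1) * g (a - S.k j)) (g (a - S.kstar)) := by
  have h1 := hasSum_weights.mul_right (g a)
  have h2 := S.hasSum_kstar.mapL g
  simp only [one_mul] at h1
  simpa [map_sub, mul_sub] using h1.sub h2

theorem dual_le {g : StrongDual ℝ X} (hg : ‖g‖ ≤ 1) (x : X) : |g x| ≤ ‖x‖ := by
  have h := g.le_of_opNorm_le hg x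
  rw [one_mul, Real.norm_eq_abs] at h
  exact h

/-- Quantitative simultaneous norming. -/
theorem dual_estimates {g : StrongDual ℝ X} (hg : ‖g‖ ≤ 1) {a : X} (ha : a ∈ S.C) {r : ℝ}
    (hr : 1 - g (a - S.kstar) ≤ r) :
    0 ≤ r ∧ 1 - 2 * r ≤ g a ∧ g a ≤ 1 ∧ ∀ j, |g (S.k j)| ≤ r * 2 ^ (j + 2) := by
  have hle : ∀ y ∈ S.C, g (a - y) ≤ 1 := fun y hy =>
    (le_abs_self _).trans ((dual_le hg _).trans (S.hd a ha y hy))
  have hr0 : 0 ≤ r := by linarith [hle _ S.kstar_mem]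
  have hone : ∀ j, 1 - r * 2 ^ (j + 1) ≤ g (a - S.k j) := by
    intro j
    have hs : HasSum (fun i => ((1 : ℝ) / 2) ^ (i + 1) * (1 - g (a - S.k i)))
        (1 - g (a - S.kstar)) := by
      simpa [mul_sub] using hasSum_weights.sub (S.hasSum_dual g a)
    have h1 := (le_hasSum hs j fun i _ =>
      mul_nonneg (by positivity) (by linarith [hle _ (S.hk i)])).trans hr
    rw [div_pow, one_pow, one_div_mul_eq_div, div_le_iff₀ (by positivity)] at h1
    linarith
  have hga : g a ≤ 1 := (le_abs_self _).trans ((dual_le hg _).trans (S.norm_le ha))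
  have hga' : 1 - 2 * r ≤ g a := by
    have := hone 0
    rw [S.hk0, sub_zero, zero_add, pow_one] at this
    linarith
  refine ⟨hr0, hga', hga, fun j => abs_le.2 ?_⟩
  have h1 := hone j
  have h2 := hle _ (S.hk j)
  rw [map_sub] at h1 h2
  have hp : (2 : ℝ) ≤ 2 ^ (j + 1) := le_self_pow₀ one_le_two (by omega)
  have hp' : (2 : ℝ) ^ (j + 2) = 2 * 2 ^ (j + 1) := by ring
  have : r * 2 ≤ r * 2 ^ (j + 1) := mul_le_mul_of_nonneg_left hp hr0
  rw [hp']
  constructor <;> nlinarith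

theorem exists_bound_index {K : Set X} (hK : IsCompact K) (hKC : K ⊆ S.C) {μ : ℝ} (hμ : 0 < μ) :
    ∃ J, ∀ z ∈ K, ∃ j ≤ J, ‖z - S.k j‖ ≤ μ := by
  obtain ⟨s, hs⟩ := hK.elim_finite_subcover (fun j => Metric.ball (S.k j) μ)
    (fun j => Metric.isOpen_ball) fun z hz => by
      obtain ⟨j, hj⟩ := S.hkdense z (hKC hz) μ hμ
      exact mem_iUnion.2 ⟨j, mem_ball_iff_norm.2 hj⟩
  refine ⟨s.sup id, fun z hz => ?_⟩
  obtain ⟨j, hj, hzj⟩ := mem_iUnion₂.1 (hs hz)
  exact ⟨j, Finset.le_sup (f := id) hj, (mem_ball_iff_norm.1 hzj).le⟩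

end Setting

end Vale.Agent.P079
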