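import Vale.Agent.P079.Setting

/-!
The inductive selection of atoms and box windows.
-/

namespace Vale.Agent.P079

open Filter Topology Set

/-- Image of the unit cube under box coordinates. -/
def hset {X : Type*} [NormedAddCommGroup X] [NormedSpace ℝ X] (n : ℕ) (d : ℕ → X) (w : ℕ → ℝ) :
    Set X :=
  (fun t : Fin n → ℝ => ∑ m, (t m * w m) • d m) '' Set.univ.pi fun _ => Icc (0 : ℝ) 1

/-- Small budget attached to the index `p`. -/
noncomputable def ep (p : ℕ) : ℝ := ((1 : ℝ) / 2) ^ (p + 4)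

theorem ep_pos (p : ℕ) : 0 < ep p := by unfold ep; positivity

theorem ep_le (p : ℕ) : ep p ≤ 1 / 16 := by
  unfold ep
  rw [pow_add]
  have : ((1 : ℝ) / 2) ^ p ≤ 1 := pow_le_one₀ (by norm_num) (by norm_num)
  nlinarith [pow_nonneg (by norm_num : (0:ℝ) ≤ 1 / 2) p]

/-- Box windows. -/
noncomputable def win (p : ℕ) (w v : ℕ → ℝ) : ℕ → ℝ
  | 0 => 1 - ep p
  | 1 => ep p / 4
  | m + 2 => if m % 2 = 0 then v (m / 2) else w (m / 2)

/-- Admissible windows. -/
def ValidW (p : ℕ) (w : ℕ → ℝ) : Prop := ∀ t, 0 < w t ∧ w t ≤ ep p * (1 / 2) ^ t / 8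

theorem win_pos {p : ℕ} {w v : ℕ → ℝ} (hw : ValidW p w) (hv : ValidW p v) :
    ∀ n, 0 < win p w v n
  | 0 => by simp only [win]; linarith [ep_le p]
  | 1 => by simp only [win]; linarith [ep_pos p]
  | m + 2 => by simp only [win]; split_ifs <;> [exact (hv _).1; exact (hw _).1]

theorem sum_half_pow_le (n : ℕ) : ∑ m ∈ Finset.range n, ((1 : ℝ) / 2) ^ (m / 2) ≤ 4 := by
  have key : ∀ k, ∑ m ∈ Finset.range (2 * k), ((1 : ℝ) / 2) ^ (m / 2) =
      2 * ∑ t ∈ Finset.range k, ((1 : ℝ) / 2) ^ t := by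
    intro k
    induction k with
    | zero => simp
    | succ k ih =>
      rw [Nat.mul_succ, Finset.sum_range_succ, Finset.sum_range_succ, ih, Finset.sum_range_succ,
        Nat.mul_div_cancel_left k (by norm_num : 0 < 2), show (2 * k + 1) / 2 = k by omega]
      ring
  calc ∑ m ∈ Finset.range n, ((1 : ℝ) / 2) ^ (m / 2)
      ≤ ∑ m ∈ Finset.range (2 * n), ((1 : ℝ) / 2) ^ (m / 2) :=
        Finset.sum_le_sum_of_subset_of_nonneg
          (Finset.range_subset_range.2 (by omega)) fun m _ _ => by positivity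
    _ = 2 * ∑ t ∈ Finset.range n, ((1 : ℝ) / 2) ^ t := key n
    _ ≤ 2 * 2 := by
        gcongr
        exact sum_le_hasSum _ (fun t _ => by positivity) hasSum_geometric_two
    _ = 4 := by norm_num

theorem win_tail_le {p : ℕ} {w v : ℕ → ℝ} (hw : ValidW p w) (hv : ValidW p v) (n : ℕ) :
    ∑ m ∈ Finset.range n, win p w v (m + 1) ≤ ep p := by
  rcases n with _ | n
  · simp [(ep_pos p).le]
  rw [Finset.sum_range_succ']
  have h1 : ∀ m, win p w v (m + 1 + 1) ≤ ep p / 8 * (1 / 2) ^ (m / 2) := by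
    intro m
    have a := (hw (m / 2)).2
    have b := (hv (m / 2)).2
    show (if m % 2 = 0 then v (m / 2) else w (m / 2)) ≤ _
    split_ifs <;> linarith
  have h2 := Finset.sum_le_sum fun m (_ : m ∈ Finset.range n) => h1 m
  rw [← Finset.mul_sum] at h2
  have h3 := mul_le_mul_of_nonneg_left (sum_half_pow_le n)
    (show (0 : ℝ) ≤ ep p / 8 by linarith [ep_pos p])
  have h4 : win p w v (0 + 1) = ep p / 4 := rfl
  linarith [ep_pos p]

theorem win_sum_le {p : ℕ} {w v : ℕ → ℝ} (hw : ValidW p w) (hv : ValidW p v) (n : ℕ) :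
    ∑ m ∈ Finset.range n, win p w v m ≤ 1 := by
  rcases n with _ | n
  · simp
  rw [Finset.sum_range_succ']
  have := win_tail_le hw hv n
  have : win p w v 0 = 1 - ep p := rfl
  linarith

namespace Setting

variable {X : Type*} [NormedAddCommGroup X] [NormedSpace ℝ X] (S : Setting X)

/-- Box directions. -/
noncomputable def dir (a : ℕ → X) (q : ℕ) : ℕ → X
  | 0 => a q
  | 1 => S.kstar
  | m + 2 => if m % 2 = 0 then S.k (m / 2) else if q < m / 2 then a (m / 2) else 0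

/-- The compact head of a box. -/
noncomputable def head (a : ℕ → X) (p q i : ℕ) (w v : ℕ → ℝ) : Set X :=
  hset (2 * i + 2) (S.dir a q) (win p w v)

theorem head_congr {a a' : ℕ → X} {p q i : ℕ} {w w' v v' : ℕ → ℝ} (hq : q < i)
    (ha : ∀ t < i, a t = a' t) (hw : ∀ t < i, w t = w' t) (hv : ∀ t < i, v t = v' t) :
    S.head a p q i w v = S.head a' p q i w' v' := by
  unfold head hset
  congr 1
  funext t
  refine Finset.sum_congr rfl fun m _ => ?_
  rcases m with ⟨m, hm⟩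
  rcases m with _ | _ | m
  · simp [dir, win, ha q hq]
  · simp [dir, win]
  · have h : m / 2 < i := by omega
    simp [dir, win, ha _ h, hw _ h, hv _ h]

variable [CompleteSpace X]

theorem dir_mem {a : ℕ → X} (ha : ∀ t, a t ∈ S.C) (q : ℕ) : ∀ n, S.dir a q n ∈ S.C
  | 0 => ha q
  | 1 => S.kstar_mem
  | m + 2 => by simp only [dir]; split_ifs <;> first | exact S.hk _ | exact ha _ | exact S.h0

theorem head_subset {a : ℕ → X} (ha : ∀ t, a t ∈ S.C) (p q i : ℕ) {w v : ℕ → ℝ}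
    (hw : ValidW p w) (hv : ValidW p v) : S.head a p q i w v ⊆ S.C := by
  rintro _ ⟨t, ht, rfl⟩
  have ht' : ∀ m, 0 ≤ t m ∧ t m ≤ 1 := fun m => ht m (Set.mem_univ m)
  show (∑ m : Fin (2 * i + 2), (t m * win p w v m) • S.dir a q m) ∈ S.C
  refine comb_mem S.hcv S.h0 _ _ _ (fun m _ => mul_nonneg (ht' m).1 (win_pos hw hv m).le) ?_
    (fun m _ => S.dir_mem ha q m)
  refine (Finset.sum_le_sum fun (m : Fin (2 * i + 2)) _ =>
    mul_le_of_le_one_left (win_pos hw hv m).le (ht' m).2).trans ?_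
  rw [Fin.sum_univ_eq_sum_range (fun m => win p w v m)]
  exact win_sum_le hw hv _

theorem exists_param {a : ℕ → X} (ha : ∀ t, a t ∈ S.C) (i p : ℕ) {W V : ℕ → ℝ}
    (hW : ValidW p W) (hV : ValidW p V) (cap : ℝ) (hcap : 0 < cap) (hcap' : cap ≤ ep p)
    (R' : ℝ) (hR'0 : 0 < R') (hR'1 : R' ≤ 1) :
    ∃ w κ R : ℝ, 0 < w ∧ w ≤ cap ∧ 0 < κ ∧ 0 < R ∧ R ≤ R' ∧
      ∀ x ∈ S.C, ‖S.Ap p (a p) x - x‖ ≤ R → ∀ q, p < q → q < i → ∀ g : StrongDual ℝ X, ‖g‖ ≤ 1 →
        1 - g (x - S.kstar) ≤ R →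
        (∀ z ∈ S.C, ∀ y ∈ S.head a p q i W V, ‖z - y‖ ≤ w + κ →
          |g (S.Ap p (a p) z)| ≤ ep p / 4 * (R' / 8)) ∧
        (∀ z ∈ S.C, (1 - w)⁻¹ • z ∈ S.C → z + w • x ∈ S.C → ∀ y ∈ S.head a p q i W V,
          ‖z - y‖ ≤ κ →
          w * (1 - R' / 2) ≤ g (S.Ap p (a p) (z + w • x)) - g (S.Ap p (a p) z)) := by
  set A := S.Ap p (a p) with hAdef
  have hA := S.good_Ap p (a p)
  set w : ℝ := min cap (ep p / 4 * R' / 40)
  have hε := ep_pos p
  have hw0 : 0 < w := lt_min hcap (by positivity)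
  have hw1 : w ≤ ep p / 4 * R' / 40 := min_le_right _ _
  have hwsmall : w < 1 := by nlinarith [ep_le p]
  set μ : ℝ := w * R' / 40
  have hμ : 0 < μ := by positivity
  set K : Set X := ⋃ q ∈ (Finset.range i : Set ℕ), A '' S.head a p q i W V
  have hK : IsCompact K := (Finset.range i).finite_toSet.isCompact_biUnion fun q _ => by
    refine (IsCompact.image (isCompact_univ_pi fun _ => isCompact_Icc) (by fun_prop)).image_of_continuousOn
      (hA.2.1.continuousOn.mono ?_)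
    exact S.head_subset ha p q i hW hV
  have hKC : K ⊆ S.C := iUnion₂_subset fun q _ =>
    (Set.image_mono (S.head_subset ha p q i hW hV)).trans hA.1.image_subset
  obtain ⟨J, hJ⟩ := S.exists_bound_index hK hKC hμ
  refine ⟨w, μ, min R' (w * R' / (40 * 2 ^ (J + 3))), hw0, min_le_left _ _, hμ,
    lt_min hR'0 (by positivity), min_le_left _ _, fun x hx hxA q hpq hqi g hg hgr => ?_⟩
  set R : ℝ := min R' (w * R' / (40 * 2 ^ (J + 3)))
  have hR2 : R * (40 * 2 ^ (J + 3)) ≤ w * R' :=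
    (le_div_iff₀ (by positivity)).1 (min_le_right _ _)
  obtain ⟨hR0, hgx, -, hgk⟩ := S.dual_estimates hg hx hgr
  have hp8 : (8 : ℝ) ≤ 2 ^ (J + 3) := by
    rw [pow_add]
    have h1 : (1 : ℝ) ≤ 2 ^ J := one_le_pow₀ (by norm_num)
    linarith
  have hR3 : R * 320 ≤ w * R' := by nlinarith [mul_le_mul_of_nonneg_left hp8 hR0]
  have hδ : ∀ y ∈ S.head a p q i W V, |g (A y)| ≤ w * R' / 20 := by
    intro y hy
    obtain ⟨j, hj, hjy⟩ := hJ (A y) (mem_iUnion₂.2 ⟨q, by simpa using hqi, mem_image_of_mem A hy⟩)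
    have h1 : |g (A y - S.k j)| ≤ μ := (dual_le hg _).trans hjy
    have h2 : |g (S.k j)| ≤ R * 2 ^ (J + 2) :=
      (hgk j).trans (mul_le_mul_of_nonneg_left (pow_le_pow_right₀ one_le_two (by omega)) hR0)
    have h3 : R * 2 ^ (J + 2) * 80 ≤ w * R' := by
      calc R * 2 ^ (J + 2) * 80 = R * (40 * 2 ^ (J + 3)) := by ring
        _ ≤ w * R' := hR2
    have h4 : |g (A y)| ≤ |g (A y - S.k j)| + |g (S.k j)| := by
      rw [map_sub]
      simpa using abs_add_le (g (A y) - g (S.k j)) (g (S.k j))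
    have : μ * 40 = w * R' := by simp only [μ]; ring
    linarith
  have hlip : ∀ u ∈ S.C, ∀ v ∈ S.C, |g (A u) - g (A v)| ≤ ‖u - v‖ := fun u hu v hv => by
    rw [← map_sub]
    exact (dual_le hg _).trans (lip_apply hA.2.1 hu hv)
  have hwR : w * R' ≤ w := mul_le_of_le_one_right hw0.le hR'1
  have hμeq : μ = w * R' / 40 := rfl
  constructor
  · intro z hz y hy hzy
    have h1 := hlip z hz y (S.head_subset ha p q i hW hV hy)
    have h2 := hδ y hy
    have h3 := abs_sub_abs_le_abs_sub (g (A z)) (g (A y))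
    linarith [mul_pos (mul_pos hε hR'0) (by norm_num : (0:ℝ) < 1)]
  · intro z hz hz' hzw y hy hzy
    have h1 := hlip z hz y (S.head_subset ha p q i hW hV hy)
    have h2 := hδ y hy
    have h4 : ‖x - (z + w • x)‖ ≤ 1 - w := by
      have e : x - (z + w • x) = (1 - w) • (x - (1 - w)⁻¹ • z) := by
        rw [smul_sub, smul_smul, mul_inv_cancel₀ (by linarith), one_smul, sub_smul, one_smul]
        abel
      rw [e, norm_smul, Real.norm_of_nonneg (by linarith)]
      exact mul_le_of_le_one_right (by linarith) (S.hd x hx _ hz')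
    have h5 := (abs_le.1 (hlip (z + w • x) hzw x hx)).1
    rw [norm_sub_rev] at h5
    have h6 := (abs_le.1 ((dual_le hg (A x - x)).trans hxA)).1
    rw [map_sub] at h6
    have h7 := (abs_le.1 h1).2
    have h8 := (abs_le.1 h2).2
    linarith

/-- The data produced at one stage. -/
structure Out where
  x : X
  w : ℕ → ℝ
  v : ℕ → ℝ
  κ : ℕ → ℝ
  R : ℕ → ℝ

/-- The requirements on the data produced at stage `i`. -/
structure Spec (i : ℕ) (a : ℕ → X) (W V : ℕ → ℕ → ℝ) (cap : ℕ → ℝ) (o : Out (X := X)) : Prop where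
  mem : o.x ∈ S.C
  small : ∀ j ≤ i, |S.G j o.x| ≤ (1 / 2) ^ i
  w_pos : ∀ p, 0 < o.w p
  w_le : ∀ p, o.w p ≤ cap p
  v_pos : ∀ p, 0 < o.v p
  v_le : ∀ p, o.v p ≤ cap p
  v_le_κ : ∀ p, o.v p ≤ o.κ p / 4
  κ_pos : ∀ p, 0 < o.κ p
  mono : ∀ p, o.R p ≤ o.R (p + 1)
  far : 1 - o.R 0 ≤ ‖o.x - S.kstar‖
  fix : ∀ p < i, ‖S.Ap p (a p) o.x - o.x‖ ≤ (1 / 2) ^ i
  top : ∀ g : StrongDual ℝ X, ‖g‖ ≤ 1 → 1 - g (o.x - S.kstar) ≤ o.R i →
    1 - (1 / 2) ^ i ≤ g o.x ∧ ∀ t < i, |g (a t)| ≤ (1 / 2) ^ i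
  slopes : ∀ p q, p < q → q < i → ∀ g : StrongDual ℝ X, ‖g‖ ≤ 1 →
    1 - g (o.x - S.kstar) ≤ o.R p →
    (∀ z ∈ S.C, ∀ y ∈ S.head a p q i (W p) (V p), ‖z - y‖ ≤ o.w p + o.κ p →
      |g (S.Ap p (a p) z)| ≤ ep p / 4 * (o.R (p + 1) / 8)) ∧
    (∀ z ∈ S.C, (1 - o.w p)⁻¹ • z ∈ S.C → z + o.w p • o.x ∈ S.C →
      ∀ y ∈ S.head a p q i (W p) (V p), ‖z - y‖ ≤ o.κ p →
      o.w p * (1 - o.R (p + 1) / 2) ≤
        g (S.Ap p (a p) (z + o.w p • o.x)) - g (S.Ap p (a p) z))

theorem exists_out (i : ℕ) {a : ℕ → X} (ha : ∀ t, a t ∈ S.C) {W V : ℕ → ℕ → ℝ}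
    (hW : ∀ p, ValidW p (W p)) (hV : ∀ p, ValidW p (V p)) {cap : ℕ → ℝ} (hcap : ∀ p, 0 < cap p)
    (hcap' : ∀ p, cap p ≤ ep p) : ∃ o, S.Spec i a W V cap o := by
  classical
  obtain ⟨J, hJ⟩ := S.exists_bound_index ((Finset.range i).image a).finite_toSet.isCompact
    (fun z hz => by
      obtain ⟨t, -, rfl⟩ := Finset.mem_image.1 (Finset.mem_coe.1 hz)
      exact ha t)
    (show (0 : ℝ) < (1 / 2) ^ (i + 2) by positivity)
  set top : ℝ := (1 / 2) ^ (i + 3) / 2 ^ (J + 2) with htop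
  have htop0 : 0 < top := by positivity
  have htop1 : top ≤ (1 / 2) ^ (i + 3) := div_le_self (by positivity) (one_le_pow₀ one_le_two)
  have htop2 : top ≤ 1 := htop1.trans (pow_le_one₀ (by norm_num) (by norm_num))
  choose fw fκ fR hfw0 hfw hfκ hfR0 hfR hfmain using
    fun (p : ℕ) (R' : ℝ) (h : 0 < R' ∧ R' ≤ 1) =>
      S.exists_param ha i p (hW p) (hV p) (cap p) (hcap p) (hcap' p) R' h.1 h.2
  let Rs : ℕ → {r : ℝ // 0 < r ∧ r ≤ 1} := fun n => Nat.rec ⟨top, htop0, htop2⟩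
    (fun m r => ⟨fR (i - 1 - m) r.1 r.2, hfR0 _ _ _, (hfR _ _ _).trans r.2.2⟩) n
  have hanti : ∀ n m, n ≤ m → (Rs m).1 ≤ (Rs n).1 := fun n m h => by
    induction h with
    | refl => exact le_rfl
    | @step m' _ ih => exact (hfR _ _ (Rs m').2).trans ih
  set R : ℕ → ℝ := fun p => (Rs (i - p)).1 with hRdef
  set wv : ℕ → ℝ := fun p => fw p (R (p + 1)) (Rs (i - (p + 1))).2
  set κv : ℕ → ℝ := fun p => fκ p (R (p + 1)) (Rs (i - (p + 1))).2
  set ρ : ℝ := min ((1 / 2) ^ i) (R 0)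
  have hρ : 0 < ρ := lt_min (by positivity) (Rs _).2.1
  have hev1 : ∀ᶠ n in atTop, ∀ p ∈ Finset.range i, ‖S.Ap p (a p) (S.f n) - S.f n‖ ≤ ρ :=
    (eventually_all_finset _).2 fun p _ => S.eventually_fix (S.good_Ap p (a p)) hρ
  have hev2 : ∀ᶠ n in atTop, 1 - ρ ≤ ‖S.f n - S.kstar‖ := S.hfar _ S.kstar_mem _ hρ
  have hev3 : ∀ᶠ n in (S.U : Filter ℕ), ∀ j ∈ Finset.range (i + 1), |S.G j (S.f n)| ≤ (1 / 2) ^ i :=
    (eventually_all_finset _).2 fun j _ => by
      have := (S.hfw (S.G j)).abs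
      rw [abs_zero] at this
      exact this.eventually (eventually_le_nhds (by positivity))
  obtain ⟨n, ⟨h1, h2⟩, h3⟩ := (((hev1.and hev2).filter_mono S.hU).and hev3).exists
  refine ⟨⟨S.f n, wv, fun p => min (cap p) (κv p / 4), κv, R⟩, ?_⟩
  have hR0le : ∀ p, R 0 ≤ R p := fun p => hanti _ _ (by omega)
  constructor
  · exact S.hf n
  · exact fun j hj => h3 j (Finset.mem_range.2 (by omega))
  · exact fun p => hfw0 _ _ _
  · exact fun p => hfw _ _ _
  · exact fun p => lt_min (hcap p) (by have := hfκ p (R (p + 1)) (Rs (i - (p + 1))).2; positivity)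
  · exact fun p => min_le_left _ _
  · exact fun p => min_le_right _ _
  · exact fun p => hfκ _ _ _
  · exact fun p => hanti _ _ (by omega)
  · show 1 - R 0 ≤ ‖S.f n - S.kstar‖
    have : ρ ≤ R 0 := min_le_right _ _
    linarith
  · exact fun p hp => (h1 p (Finset.mem_range.2 hp)).trans (min_le_left _ _)
  · intro g hg hgr
    have hRi : R i = top := by simp [hRdef, Rs]
    dsimp only at hgr
    rw [hRi] at hgr
    obtain ⟨h0, hga, -, hgk⟩ := S.dual_estimates hg (S.hf n) hgr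
    have hpow : ((1 : ℝ) / 2) ^ (i + 3) = (1 / 2) ^ i / 8 := by ring
    have hpow2 : ((1 : ℝ) / 2) ^ (i + 2) = (1 / 2) ^ i / 4 := by ring
    have hi0 : (0 : ℝ) < (1 / 2) ^ i := by positivity
    refine ⟨by dsimp only; linarith, fun t ht => ?_⟩
    obtain ⟨j, hj, hjt⟩ := hJ (a t) (Finset.mem_coe.2 (Finset.mem_image_of_mem a (Finset.mem_range.2 ht)))
    have h4 := (dual_le hg (a t - S.k j)).trans hjt
    have h5 : |g (S.k j)| ≤ (1 / 2) ^ (i + 3) := by
      refine (hgk j).trans ?_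
      calc top * 2 ^ (j + 2) ≤ top * 2 ^ (J + 2) :=
            mul_le_mul_of_nonneg_left (pow_le_pow_right₀ one_le_two (by omega)) htop0.le
        _ = (1 / 2) ^ (i + 3) := by rw [htop, div_mul_cancel₀ _ (by positivity)]
    rw [map_sub] at h4
    have := abs_add_le (g (a t) - g (S.k j)) (g (S.k j))
    rw [sub_add_cancel] at this
    linarith
  · intro p q hpq hq g hg hgr
    dsimp only at hgr ⊢
    have hRp : R p = fR p (R (p + 1)) (Rs (i - (p + 1))).2 := by
      have e : i - p = (i - (p + 1)) + 1 := by omega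
      have e' : i - 1 - (i - (p + 1)) = p := by omega
      have key : ∀ p', p' = p → fR p' (R (p + 1)) (Rs (i - (p + 1))).2 =
          fR p (R (p + 1)) (Rs (i - (p + 1))).2 := fun p' h => by subst h; rfl
      rw [← key _ e']
      simp only [hRdef]
      rw [e]
    rw [hRp] at hgr
    exact hfmain p (R (p + 1)) (Rs (i - (p + 1))).2 (S.f n) (S.hf n)
      ((h1 p (Finset.mem_range.2 (by omega))).trans
        ((min_le_right _ _).trans ((hR0le p).trans hRp.le))) q hpq hq g hg hgr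

/-- State of the induction. -/
structure St (i : ℕ) where
  a : ℕ → X
  W : ℕ → ℕ → ℝ
  V : ℕ → ℕ → ℝ
  cap : ℕ → ℝ
  ha : ∀ t, a t ∈ S.C
  hW : ∀ p, ValidW p (W p)
  hV : ∀ p, ValidW p (V p)
  hcap : ∀ p, 0 < cap p
  hcap' : ∀ p, cap p ≤ ep p * (1 / 2) ^ i / 8

theorem St.cap_le_ep {i : ℕ} (s : S.St i) (p : ℕ) : s.cap p ≤ ep p := by
  have h1 : ((1 : ℝ) / 2) ^ i ≤ 1 := pow_le_one₀ (by norm_num) (by norm_num)
  nlinarith [s.hcap' p, ep_pos p]

/-- The chosen output at a state. -/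
noncomputable def outOf {i : ℕ} (s : S.St i) : Out (X := X) :=
  (S.exists_out i s.ha s.hW s.hV s.hcap (s.cap_le_ep S)).choose

theorem outOf_spec {i : ℕ} (s : S.St i) : S.Spec i s.a s.W s.V s.cap (S.outOf s) :=
  (S.exists_out i s.ha s.hW s.hV s.hcap (s.cap_le_ep S)).choose_spec

/-- The next state. -/
noncomputable def next {i : ℕ} (s : S.St i) : S.St (i + 1) where
  a := Function.update s.a i (S.outOf s).x
  W p t := if t = i then (S.outOf s).w p else s.W p t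
  V p t := if t = i then (S.outOf s).v p else s.V p t
  cap p := min (s.cap p / 2) ((S.outOf s).κ p / 16)
  ha t := by
    by_cases h : t = i
    · subst h; simpa using (S.outOf_spec s).mem
    · simpa [h] using s.ha t
  hW p t := by
    dsimp only
    split
    · next h => subst h; exact ⟨(S.outOf_spec s).w_pos p, ((S.outOf_spec s).w_le p).trans (s.hcap' p)⟩
    · exact s.hW p t
  hV p t := by
    dsimp only
    split
    · next h => subst h; exact ⟨(S.outOf_spec s).v_pos p, ((S.outOf_spec s).v_le p).trans (s.hcap' p)⟩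
    · exact s.hV p t
  hcap p := lt_min (by linarith [s.hcap p]) (by linarith [(S.outOf_spec s).κ_pos p])
  hcap' p := (min_le_left _ _).trans (by
    have := s.hcap' p
    rw [pow_succ]
    linarith)

/-- The states. -/
noncomputable def st : (i : ℕ) → S.St i
  | 0 =>
    { a := fun _ => 0
      W := fun p t => ep p * (1 / 2) ^ t / 8
      V := fun p t => ep p * (1 / 2) ^ t / 8
      cap := fun p => ep p * (1 / 2) ^ 0 / 8
      ha := fun _ => S.h0
      hW := fun p t => ⟨by have := ep_pos p; positivity, le_rfl⟩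
      hV := fun p t => ⟨by have := ep_pos p; positivity, le_rfl⟩
      hcap := fun p => by have := ep_pos p; positivity
      hcap' := fun p => le_rfl }
  | i + 1 => S.next (st i)

/-- The output at stage `i`. -/
noncomputable def out (i : ℕ) : Out (X := X) := S.outOf (S.st i)

/-- The selected atoms. -/
noncomputable def aS (i : ℕ) : X := (S.out i).x

/-- The selected atom windows. -/
noncomputable def wS (p i : ℕ) : ℝ := (S.out i).w p

/-- The selected dense-direction windows. -/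
noncomputable def vS (p i : ℕ) : ℝ := (S.out i).v p

theorem st_stable : ∀ i t, t < i →
    (S.st i).a t = S.aS t ∧ (∀ p, (S.st i).W p t = S.wS p t) ∧ ∀ p, (S.st i).V p t = S.vS p t := by
  intro i
  induction i with
  | zero => intro t ht; omega
  | succ i ih =>
    intro t ht
    rcases Nat.lt_succ_iff_lt_or_eq.1 ht with h | rfl
    · obtain ⟨h1, h2, h3⟩ := ih t h
      refine ⟨?_, fun p => ?_, fun p => ?_⟩
      · simp [st, next, h.ne, h1]
      · simp [st, next, h.ne, h2]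
      · simp [st, next, h.ne, h3]
    · simp [st, next, aS, wS, vS, out]

theorem aS_mem (i : ℕ) : S.aS i ∈ S.C := (S.outOf_spec (S.st i)).mem

theorem valid_wS (p : ℕ) : ValidW p (S.wS p) := fun t =>
  ⟨(S.outOf_spec (S.st t)).w_pos p,
    ((S.outOf_spec (S.st t)).w_le p).trans ((S.st t).hcap' p)⟩

theorem valid_vS (p : ℕ) : ValidW p (S.vS p) := fun t =>
  ⟨(S.outOf_spec (S.st t)).v_pos p,
    ((S.outOf_spec (S.st t)).v_le p).trans ((S.st t).hcap' p)⟩

theorem cap_decay (p i : ℕ) : ∀ m, (S.st (i + 1 + m)).cap p ≤ (S.out i).κ p / 16 * (1 / 2) ^ m := by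
  intro m
  induction m with
  | zero => simp only [pow_zero, mul_one, add_zero]; exact min_le_right _ _
  | succ m ih =>
    calc (S.st (i + 1 + m + 1)).cap p ≤ (S.st (i + 1 + m)).cap p / 2 := min_le_left _ _
      _ ≤ (S.out i).κ p / 16 * (1 / 2) ^ m / 2 := by linarith
      _ = (S.out i).κ p / 16 * (1 / 2) ^ (m + 1) := by ring

theorem tail_windows (p i m : ℕ) :
    win p (S.wS p) (S.vS p) (2 * i + 4 + m) ≤ (S.out i).κ p / 16 * (1 / 2) ^ (m / 2) := by
  have e : 2 * i + 4 + m = 2 * i + 2 + m + 2 := by omega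
  rw [e]
  have h := S.cap_decay p i (m / 2)
  have e2 : (2 * i + 2 + m) / 2 = i + 1 + m / 2 := by omega
  simp only [win, e2]
  split_ifs
  · exact le_trans ((S.outOf_spec _).v_le p) h
  · exact le_trans ((S.outOf_spec _).w_le p) h

theorem aS_small (i j : ℕ) (h : j ≤ i) : |S.G j (S.aS i)| ≤ (1 / 2) ^ i :=
  (S.outOf_spec (S.st i)).small j h

theorem aS_fix {p i : ℕ} (h : p < i) :
    ‖S.Ap p (S.aS p) (S.aS i) - S.aS i‖ ≤ (1 / 2) ^ i := by
  have := (S.outOf_spec (S.st i)).fix p h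
  rwa [(S.st_stable i p h).1] at this

theorem aS_far (i : ℕ) : 1 - (S.out i).R 0 ≤ ‖S.aS i - S.kstar‖ := (S.outOf_spec (S.st i)).far

theorem R_mono (i : ℕ) {p p' : ℕ} (h : p ≤ p') : (S.out i).R p ≤ (S.out i).R p' :=
  monotone_nat_of_le_succ (S.outOf_spec (S.st i)).mono h

theorem aS_top (i : ℕ) (g : StrongDual ℝ X) (hg : ‖g‖ ≤ 1)
    (h : 1 - g (S.aS i - S.kstar) ≤ (S.out i).R i) :
    1 - (1 / 2) ^ i ≤ g (S.aS i) ∧ ∀ t < i, |g (S.aS t)| ≤ (1 / 2) ^ i := by
  obtain ⟨h1, h2⟩ := (S.outOf_spec (S.st i)).top g hg h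
  refine ⟨h1, fun t ht => ?_⟩
  have := h2 t ht
  rwa [(S.st_stable i t ht).1] at this

theorem aS_slopes {p q i : ℕ} (hpq : p < q) (hqi : q < i) (g : StrongDual ℝ X) (hg : ‖g‖ ≤ 1)
    (h : 1 - g (S.aS i - S.kstar) ≤ (S.out i).R p) :
    (∀ z ∈ S.C, ∀ y ∈ S.head S.aS p q i (S.wS p) (S.vS p),
      ‖z - y‖ ≤ S.wS p i + (S.out i).κ p →
      |g (S.Ap p (S.aS p) z)| ≤ ep p / 4 * ((S.out i).R (p + 1) / 8)) ∧
    (∀ z ∈ S.C, (1 - S.wS p i)⁻¹ • z ∈ S.C → z + S.wS p i • S.aS i ∈ S.C →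
      ∀ y ∈ S.head S.aS p q i (S.wS p) (S.vS p), ‖z - y‖ ≤ (S.out i).κ p →
      S.wS p i * (1 - (S.out i).R (p + 1) / 2) ≤
        g (S.Ap p (S.aS p) (z + S.wS p i • S.aS i)) - g (S.Ap p (S.aS p) z)) := by
  have hst := S.st_stable i
  have hh : S.head S.aS p q i (S.wS p) (S.vS p) =
      S.head (S.st i).a p q i ((S.st i).W p) ((S.st i).V p) :=
    S.head_congr hqi (fun t ht => (hst t ht).1.symm) (fun t ht => ((hst t ht).2.1 p).symm)
      (fun t ht => ((hst t ht).2.2 p).symm)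
  rw [hh, ← (hst p (by omega)).1]
  exact (S.outOf_spec (S.st i)).slopes p q hpq hqi g hg h

end Setting

end Vale.Agent.P079
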